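import Vale.Agent.P359.Sphere.Tail

/-!
# P359: continuity of the finite channel matrices in the flux

In raw polynomial coefficients extremal vectors and zero modes do not depend on `Q`; only the monomial
weights, the ladder and its norms do. All three converge, so strict planar inequalities persist.
-/

open Filter Finset
open scoped Topology Nat

namespace Vale.Agent.P359.Sphere

variable {ι : Type*} [Fintype ι]

/-- A form with a margin survives small changes of its entries. -/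
theorem eventually_form_nonneg (A : ℕ → ι → ι → ℝ) (M : ι → ι → ℝ) (ε : ℝ) (hε : 0 < ε)
    (hA : ∀ i j, Tendsto (fun Q => A Q i j) atTop (𝓝 (M i j)))
    (hM : ∀ x : ι → ℝ, ε * ∑ i, x i ^ 2 ≤ ∑ i, ∑ j, M i j * x i * x j) :
    ∀ᶠ Q in atTop, ∀ x : ι → ℝ, 0 ≤ ∑ i, ∑ j, A Q i j * x i * x j := by
  have hsum : Tendsto (fun Q => ∑ i, ∑ j, |A Q i j - M i j|) atTop (𝓝 0) := by
    have h := tendsto_finsetSum univ fun i _ => tendsto_finsetSum univ fun j _ =>
      ((hA i j).sub_const (M i j)).abs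
    simpa using h
  filter_upwards [hsum.eventually (gt_mem_nhds hε)] with Q hQ x
  have hsq : ∀ i, x i ^ 2 ≤ ∑ k, x k ^ 2 := fun i =>
    single_le_sum (f := fun k => x k ^ 2) (fun k _ => sq_nonneg _) (mem_univ i)
  have hb : ∀ i j, (M i j - A Q i j) * x i * x j ≤ |A Q i j - M i j| * ∑ k, x k ^ 2 := by
    intro i j
    refine (le_abs_self _).trans ?_
    rw [mul_assoc, abs_mul, abs_sub_comm (M i j)]
    refine mul_le_mul_of_nonneg_left ?_ (abs_nonneg _)
    rw [abs_mul]
    nlinarith [hsq i, hsq j, sq_nonneg (|x i| - |x j|), sq_abs (x i), sq_abs (x j)]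
  have hd : ∑ i, ∑ j, M i j * x i * x j - ∑ i, ∑ j, A Q i j * x i * x j
      ≤ (∑ i, ∑ j, |A Q i j - M i j|) * ∑ k, x k ^ 2 := by
    simp only [← sum_sub_distrib, sum_mul]
    refine sum_le_sum fun i _ => sum_le_sum fun j _ => ?_
    have := hb i j
    rw [sub_mul, sub_mul] at this
    exact this
  have hle : (∑ i, ∑ j, |A Q i j - M i j|) * ∑ k, x k ^ 2 ≤ ε * ∑ k, x k ^ 2 :=
    mul_le_mul_of_nonneg_right hQ.le (sum_nonneg fun k _ => sq_nonneg _)
  linarith [hM x]

/-- A positive definite form has a margin. -/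
theorem exists_margin (M : ι → ι → ℝ)
    (hM : ∀ x : ι → ℝ, x ≠ 0 → 0 < ∑ i, ∑ j, M i j * x i * x j) :
    ∃ ε > 0, ∀ x : ι → ℝ, ε * ∑ i, x i ^ 2 ≤ ∑ i, ∑ j, M i j * x i * x j := by
  cases isEmpty_or_nonempty ι with
  | inl h => exact ⟨1, one_pos, fun x => by simp⟩
  | inr h =>
      classical
      set S : Set (ι → ℝ) := {x | ∑ i, x i ^ 2 = 1} with hS
      have hc : IsCompact S := by
        refine IsCompact.of_isClosed_subset (isCompact_closedBall (0 : ι → ℝ) 1)
          (isClosed_eq (by fun_prop) continuous_const) ?_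
        intro x hx
        rw [mem_closedBall_zero_iff, pi_norm_le_iff_of_nonneg zero_le_one]
        intro i
        have := single_le_sum (f := fun k => x k ^ 2) (fun k _ => sq_nonneg _) (mem_univ i)
        rw [hx] at this
        rwa [Real.norm_eq_abs, ← sq_le_one_iff_abs_le_one]
      have hne : S.Nonempty := by
        obtain ⟨i⟩ := h
        exact ⟨Pi.single i 1, by simp [hS, Pi.single_apply, ite_pow]⟩
      obtain ⟨x0, hx0, hmin⟩ := hc.exists_isMinOn hne
        (f := fun x : ι → ℝ => ∑ i, ∑ j, M i j * x i * x j) (by fun_prop)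
      have hpos : 0 < ∑ i, ∑ j, M i j * x0 i * x0 j := hM x0 fun h0 => by
        simp [hS, h0] at hx0
      refine ⟨_, hpos, fun x => ?_⟩
      rcases eq_or_lt_of_le (sum_nonneg fun i (_ : i ∈ univ) => sq_nonneg (x i)) with h0 | h0
      · have hx : x = 0 := funext fun i => by
          have := (sum_eq_zero_iff_of_nonneg fun i _ => sq_nonneg (x i)).1 h0.symm i (mem_univ i)
          simpa using this
        simp [hx]
      · set r := Real.sqrt (∑ i, x i ^ 2) with hr
        have hr0 : 0 < r := Real.sqrt_pos.2 h0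
        have hr2 : r ^ 2 = ∑ i, x i ^ 2 := Real.sq_sqrt h0.le
        have hmem : (fun i => x i / r) ∈ S := by
          simp only [hS, Set.mem_ofPred_eq, div_pow, ← sum_div, hr2]
          exact div_self h0.ne'
        have := hmin hmem
        simp only [Set.mem_ofPred_eq] at this
        have he : ∑ i, ∑ j, M i j * (x i / r) * (x j / r)
            = (∑ i, ∑ j, M i j * x i * x j) / r ^ 2 := by
          simp only [sum_div]
          exact sum_congr rfl fun i _ => sum_congr rfl fun j _ => by field_simp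
        rw [he, le_div_iff₀ (by positivity), hr2] at this
        linarith

/-- Strict positivity in the plane gives positivity on all large spheres. -/
theorem eventually_form_nonneg_of_pos (A : ℕ → ι → ι → ℝ) (M : ι → ι → ℝ)
    (hA : ∀ i j, Tendsto (fun Q => A Q i j) atTop (𝓝 (M i j)))
    (hM : ∀ x : ι → ℝ, x ≠ 0 → 0 < ∑ i, ∑ j, M i j * x i * x j) :
    ∀ᶠ Q in atTop, ∀ x : ι → ℝ, 0 ≤ ∑ i, ∑ j, A Q i j * x i * x j := by
  obtain ⟨ε, hε, h⟩ := exists_margin M hM
  exact eventually_form_nonneg A M ε hε hA h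

/-- `Q^a / C(Q,a)`: the weight of a raw coefficient, rescaled. -/
noncomputable def rawWeight (Q a : ℕ) : ℝ := (Q : ℝ) ^ a / (Q.choose a : ℕ)

theorem tendsto_rawWeight (a : ℕ) :
    Tendsto (fun Q => rawWeight Q a) atTop (𝓝 (a ! : ℝ)) := by
  have h := (tendsto_choose_div (f := fun Q => Q) (a := 1)
    ((tendsto_linear 1 0).congr (fun Q => by simp) |>.trans (by simp)) a).inv₀ (by positivity)
  simpa [rawWeight] using h

theorem tendsto_prod_rawWeight {n : ℕ} (c : Fin n → ℕ) :
    Tendsto (fun Q => ∏ i, rawWeight Q (c i)) atTop (𝓝 (∏ i, ((c i) ! : ℝ))) :=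
  tendsto_finsetProd univ fun i _ => tendsto_rawWeight (c i)

/-- The raising operator on raw coefficients divided by `Q`: `x^a ↦ (1 - a/Q) x^(a+1)` in each factor. -/
noncomputable def raise (Q : ℕ) {n : ℕ} (f : (Fin n → ℕ) → ℝ) (c : Fin n → ℕ) : ℝ :=
  ∑ i, if c i = 0 then 0 else ((Q - (c i - 1) : ℕ) : ℝ) / Q * f (Function.update c i (c i - 1))

/-- Its planar limit: multiplication by `∑ x_i`. -/
def raiseLim {n : ℕ} (f : (Fin n → ℕ) → ℝ) (c : Fin n → ℕ) : ℝ :=
  ∑ i, if c i = 0 then 0 else f (Function.update c i (c i - 1))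

theorem tendsto_raise {n : ℕ} {F : ℕ → (Fin n → ℕ) → ℝ} {f : (Fin n → ℕ) → ℝ}
    (hF : ∀ c, Tendsto (fun Q => F Q c) atTop (𝓝 (f c))) (g : ℕ) (c : Fin n → ℕ) :
    Tendsto (fun Q => (raise Q)^[g] (F Q) c) atTop (𝓝 (raiseLim^[g] f c)) := by
  induction g generalizing c with
  | zero => simpa using hF c
  | succ g ih =>
      simp only [Function.iterate_succ_apply']
      refine tendsto_finsetSum univ fun i _ => ?_
      by_cases hc : c i = 0
      · simp [hc]
      · simp only [if_neg hc]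
        have h1 : Tendsto (fun Q : ℕ => ((Q - (c i - 1) : ℕ) : ℝ) / Q) atTop (𝓝 1) := by
          simpa using tendsto_linear 1 (c i - 1)
        simpa using h1.mul (ih _)

/-- The squared norm of `g` ladder steps from total spin `(nQ - 2L)/2`, divided by `Q^g`. -/
noncomputable def ladderNorm (Q n L g : ℕ) : ℝ :=
  (g ! : ℝ) * ((n * Q - 2 * L).descFactorial g : ℕ) / (Q : ℝ) ^ g

theorem tendsto_ladderNorm (n L g : ℕ) :
    Tendsto (fun Q => ladderNorm Q n L g) atTop (𝓝 ((g ! : ℝ) * (n : ℝ) ^ g)) := by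
  have h := (tendsto_choose_div (tendsto_linear n (2 * L)) g).const_mul ((g ! : ℝ) * (g ! : ℝ))
  have e : (g ! : ℝ) * (g ! : ℝ) * ((n : ℝ) ^ g / (g ! : ℝ)) = (g ! : ℝ) * (n : ℝ) ^ g := by
    field_simp
  rw [e] at h
  refine h.congr fun Q => ?_
  rw [ladderNorm, Nat.descFactorial_eq_factorial_mul_choose]
  push_cast
  ring

/-- A window form averaged over the ladder: `∑_g X(R^g f, R^g h) / ladderNorm`, raw coordinates,
with Q-dependent kernel. -/
noncomputable def ladderForm (Q : ℕ) {n : ℕ} (L G : ℕ) (S : Finset (Fin n → ℕ))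
    (X : (Fin n → ℕ) → (Fin n → ℕ) → ℝ) (f h : (Fin n → ℕ) → ℝ) : ℝ :=
  ∑ g ∈ range G, (∑ c ∈ S, ∑ d ∈ S, X c d * (raise Q)^[g] f c * (raise Q)^[g] h d)
    / ladderNorm Q n L g

/-- Its planar limit, `∑_g X((∑x)^g f, (∑x)^g h) / (g! n^g)`. -/
noncomputable def ladderFormLim {n : ℕ} (G : ℕ) (S : Finset (Fin n → ℕ))
    (X : (Fin n → ℕ) → (Fin n → ℕ) → ℝ) (f h : (Fin n → ℕ) → ℝ) : ℝ :=
  ∑ g ∈ range G, (∑ c ∈ S, ∑ d ∈ S, X c d * raiseLim^[g] f c * raiseLim^[g] h d)
    / ((g ! : ℝ) * (n : ℝ) ^ g)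

theorem tendsto_ladderForm {n : ℕ} (hn : 0 < n) (L G : ℕ) (S : Finset (Fin n → ℕ))
    {XQ : ℕ → (Fin n → ℕ) → (Fin n → ℕ) → ℝ} {X : (Fin n → ℕ) → (Fin n → ℕ) → ℝ}
    (hX : ∀ c ∈ S, ∀ d ∈ S, Tendsto (fun Q => XQ Q c d) atTop (𝓝 (X c d)))
    (f h : (Fin n → ℕ) → ℝ) :
    Tendsto (fun Q => ladderForm Q L G S (XQ Q) f h) atTop (𝓝 (ladderFormLim G S X f h)) := by
  refine tendsto_finsetSum _ fun g _ => ?_
  refine Tendsto.div ?_ (tendsto_ladderNorm n L g) (by positivity)
  exact tendsto_finsetSum _ fun c hc => tendsto_finsetSum _ fun d hd =>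
    ((hX c hc d hd).mul (tendsto_raise (F := fun _ => f) (fun _ => tendsto_const_nhds) g c)).mul
      (tendsto_raise (F := fun _ => h) (fun _ => tendsto_const_nhds) g d)

end Vale.Agent.P359.Sphere
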