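import Vale.Agent.P359.Sphere.Exchange

/-!
# P359: the multiplets of pair + particle and the spectral form of the exchange operator
-/

open Finset
open scoped Nat

namespace Vale.Agent.P359.Sphere

variable {Q : ℕ}

/-- The multiplet of channel `m`. -/
noncomputable def ladder (Q m g : ℕ) : ℕ → ℕ → ℝ := (lift Q)^[g] (extremal m)

theorem ladder_succ (Q m g : ℕ) : ladder Q m (g + 1) = lift Q (ladder Q m g) :=
  Function.iterate_succ_apply' _ _ _

theorem hasSum'_extremal (m : ℕ) : HasSum' m (extremal m) := fun i a h => by simp [extremal, h]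

theorem inBox_extremal (hQ : 2 ≤ Q) {m : ℕ} (hm : m ≤ Q) : InBox Q (extremal m) := by
  intro i a h
  rw [extremal, if_neg (by omega)]

theorem inBox_ladder (hQ : 2 ≤ Q) {m : ℕ} (hm : m ≤ Q) : ∀ g, InBox Q (ladder Q m g)
  | 0 => inBox_extremal hQ hm
  | g + 1 => by rw [ladder_succ]; exact inBox_lift (inBox_ladder hQ hm g)

theorem hasSum'_ladder (Q m : ℕ) : ∀ g, HasSum' (m + g) (ladder Q m g)
  | 0 => hasSum'_extremal m
  | g + 1 => by rw [ladder_succ]; exact hasSum'_lift (hasSum'_ladder Q m g)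

theorem lower_extremal (m : ℕ) : lower (extremal m) = 0 := by
  funext i a
  simp only [lower, extremal, Pi.zero_apply]
  rw [show i + (a + 1) = i + 1 + a by omega]
  split_ifs with h
  · have h' := congrArg (Nat.cast : ℕ → ℝ) (Nat.choose_succ_right_eq m i)
    push_cast [Nat.cast_sub (show i ≤ m by omega)] at h'
    have hR : (i : ℝ) + 1 + a = m := by exact_mod_cast h
    rw [pow_succ]
    linear_combination (-((-1 : ℝ) ^ i)) * h' + ((-1 : ℝ) ^ i * (m.choose i : ℝ)) * hR
  · simp

theorem lower_zero : lower (0 : ℕ → ℕ → ℝ) = 0 := by funext i a; simp [lower]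

theorem lift_smul (Q : ℕ) (c : ℝ) (f : ℕ → ℕ → ℝ) : lift Q (c • f) = c • lift Q f := by
  funext i a
  simp only [lift, Pi.smul_apply, smul_eq_mul]
  split_ifs <;> ring

theorem lower_ladder_succ (hQ : 2 ≤ Q) {m : ℕ} (hm : m ≤ Q) (g : ℕ) :
    lower (ladder Q m (g + 1))
      = (((g : ℝ) + 1) * (3 * (Q : ℝ) - 2 - 2 * m - g)) • ladder Q m g := by
  induction g with
  | zero =>
      funext i a
      rw [ladder_succ, lower_lift (by omega) (inBox_ladder hQ hm 0) (hasSum'_ladder Q m 0)]
      simp [ladder, lower_extremal, lift]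
  | succ g ih =>
      funext i a
      rw [ladder_succ Q m (g + 1),
        lower_lift (by omega) (inBox_ladder hQ hm (g + 1)) (hasSum'_ladder Q m (g + 1)), ih,
        lift_smul, ← ladder_succ]
      simp only [Pi.smul_apply, smul_eq_mul]
      push_cast
      ring

theorem ip_smul_left (Q : ℕ) (c : ℝ) (f g : ℕ → ℕ → ℝ) : ip Q (c • f) g = c * ip Q f g := by
  simp only [ip, mul_sum, Pi.smul_apply, smul_eq_mul]
  exact sum_congr rfl fun i _ => sum_congr rfl fun a _ => by ring

theorem ip_smul_right (Q : ℕ) (c : ℝ) (f g : ℕ → ℕ → ℝ) : ip Q f (c • g) = c * ip Q f g := by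
  rw [ip_comm, ip_smul_left, ip_comm]

theorem ip_sub_left (Q : ℕ) (f g h : ℕ → ℕ → ℝ) : ip Q (f - g) h = ip Q f h - ip Q g h := by
  simp only [ip, ← sum_sub_distrib, Pi.sub_apply]
  exact sum_congr rfl fun i _ => sum_congr rfl fun a _ => by ring

theorem ip_sum_right (Q : ℕ) {κ : Type*} (s : Finset κ) (f : ℕ → ℕ → ℝ) (F : κ → ℕ → ℕ → ℝ) :
    ip Q f (∑ k ∈ s, F k) = ∑ k ∈ s, ip Q f (F k) := by
  classical
  induction s using Finset.induction_on with
  | empty => simp [ip]
  | insert k s hk ih =>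
      rw [sum_insert hk, sum_insert hk, ← ih]
      simp only [ip, ← sum_add_distrib, Pi.add_apply]
      exact sum_congr rfl fun i _ => sum_congr rfl fun a _ => by ring

theorem ip_zero_right (Q : ℕ) (f : ℕ → ℕ → ℝ) : ip Q f 0 = 0 := by simp [ip]

theorem ip_self_nonneg (Q : ℕ) (f : ℕ → ℕ → ℝ) : 0 ≤ ip Q f f := by
  refine sum_nonneg fun i _ => sum_nonneg fun a _ => div_nonneg (mul_self_nonneg _) ?_
  unfold cP cS; positivity

theorem eq_zero_of_ip_self {f : ℕ → ℕ → ℝ} (hf : InBox Q f) (h : ip Q f f = 0) : f = 0 := by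
  funext i a
  by_cases hout : 2 * Q - 2 < i ∨ Q < a
  · exact hf i a hout
  · have hpos : ∀ j b, 0 ≤ f j b * f j b / (cP Q j * cS Q b) := fun j b =>
      div_nonneg (mul_self_nonneg _) (by unfold cP cS; positivity)
    have h1 := (sum_eq_zero_iff_of_nonneg fun j _ => sum_nonneg fun b _ => hpos j b).1 h i
      (mem_range.2 (by omega))
    have h2 := (sum_eq_zero_iff_of_nonneg fun b _ => hpos i b).1 h1 a (mem_range.2 (by omega))
    have hP := cP_pos (Q := Q) (i := i) (by omega)
    have hS := cS_pos (Q := Q) (a := a) (by omega)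
    rcases div_eq_zero_iff.1 h2 with h3 | h3
    · exact mul_self_eq_zero.1 h3
    · exact absurd h3 (mul_pos hP hS).ne'

theorem ip_of_sum_ne {t t' : ℕ} {f g : ℕ → ℕ → ℝ} (hf : HasSum' t f) (hg : HasSum' t' g)
    (h : t ≠ t') : ip Q f g = 0 := by
  refine sum_eq_zero fun i _ => sum_eq_zero fun a _ => ?_
  by_cases he : i + a = t
  · simp [hg i a (by omega)]
  · simp [hf i a he]

/-- The squared norm factor of `g` ladder steps. -/
noncomputable def ladderFac (Q m g : ℕ) : ℝ :=
  (g ! : ℝ) * ∏ u ∈ range g, (3 * (Q : ℝ) - 2 - 2 * m - u)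

theorem ip_ladder (hQ : 2 ≤ Q) {m m' : ℕ} (hm : m ≤ Q) (hm' : m' ≤ Q) :
    ∀ g g', ip Q (ladder Q m g) (ladder Q m' g')
      = if m = m' ∧ g = g' then ladderFac Q m g * ip Q (extremal m) (extremal m) else 0 := by
  intro g
  induction g with
  | zero =>
      intro g'
      cases g' with
      | zero =>
          by_cases h : m = m'
          · subst h; simp [ladder, ladderFac]
          · rw [if_neg (by tauto)]
            exact ip_of_sum_ne (hasSum'_ladder Q m 0) (hasSum'_ladder Q m' 0) (by omega)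
      | succ g' =>
          rw [if_neg (by omega), ip_comm, ladder_succ, ip_lift Q (inBox_ladder hQ hm 0)]
          simp [ladder, lower_extremal, ip_zero_right]
  | succ g ih =>
      intro g'
      rw [ladder_succ, ip_lift Q (inBox_ladder hQ hm' g')]
      cases g' with
      | zero =>
          rw [if_neg (by omega)]
          simp [ladder, lower_extremal, ip_zero_right]
      | succ g' =>
          rw [lower_ladder_succ hQ hm' g', ip_smul_right, ih g']
          by_cases h : m = m' ∧ g = g'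
          · obtain ⟨rfl, rfl⟩ := h
            simp only [and_self, if_true, ladderFac, Nat.factorial_succ, prod_range_succ]
            push_cast
            ring
          · rw [if_neg h, if_neg (by omega), mul_zero]

theorem eq_smul_extremal_of_lower {t : ℕ} {f : ℕ → ℕ → ℝ} (ht : HasSum' t f) (h : lower f = 0) :
    f = f 0 t • extremal t := by
  have hk : ∀ i a, i + a = t → f i a = (-1) ^ i * (t.choose i : ℕ) * f 0 t := by
    intro i
    induction i with
    | zero => intro a ha; simp [show a = t by omega]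
    | succ i ih =>
        intro a ha
        have h0 := congrFun (congrFun h i) a
        simp only [lower, Pi.zero_apply, ih (a + 1) (by omega)] at h0
        have h' := congrArg (Nat.cast : ℕ → ℝ) (Nat.choose_succ_right_eq t i)
        push_cast [Nat.cast_sub (show i ≤ t by omega)] at h'
        have hR : (i : ℝ) + 1 + a = t := by exact_mod_cast ha
        have hne : ((i : ℝ) + 1) ≠ 0 := by positivity
        refine mul_left_cancel₀ hne ?_
        rw [pow_succ]
        linear_combination h0 + ((-1 : ℝ) ^ i * f 0 t) * h'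
          - ((-1 : ℝ) ^ i * (t.choose i : ℝ) * f 0 t) * hR
  funext i a
  by_cases he : i + a = t
  · simp only [Pi.smul_apply, smul_eq_mul, extremal, if_pos he, hk i a he]
    ring
  · simp [extremal, he, ht i a he]

/-- Completeness of the multiplets. -/
theorem eq_zero_of_orth (hQ : 2 ≤ Q) :
    ∀ (t : ℕ) (f : ℕ → ℕ → ℝ), InBox Q f → HasSum' t f →
      (∀ m ≤ t, m ≤ Q → ip Q (ladder Q m (t - m)) f = 0) → f = 0 := by
  intro t
  induction t with
  | zero =>
      intro f hb ht horth
      have hl : lower f = 0 := by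
        funext i a; simp [lower, ht (i + 1) a (by omega), ht i (a + 1) (by omega)]
      have h0 := horth 0 le_rfl (Nat.zero_le _)
      rw [Nat.sub_zero, ladder, Function.iterate_zero_apply] at h0
      have hf := eq_smul_extremal_of_lower ht hl
      have : ip Q f f = 0 := by nth_rewrite 1 [hf]; rw [ip_smul_left, h0, mul_zero]
      exact eq_zero_of_ip_self hb this
  | succ t ih =>
      intro f hb ht horth
      have hl : lower f = 0 := by
        refine ih (lower f) (inBox_lower hb) (hasSum'_lower ht) fun m hmt hmQ => ?_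
        rw [← ip_lift Q hb, ← ladder_succ, show t - m + 1 = t + 1 - m by omega]
        exact horth m (by omega) hmQ
      have hf := eq_smul_extremal_of_lower ht hl
      by_cases hQt : t + 1 ≤ Q
      · have h0 := horth (t + 1) le_rfl hQt
        rw [Nat.sub_self, ladder, Function.iterate_zero_apply] at h0
        have : ip Q f f = 0 := by nth_rewrite 1 [hf]; rw [ip_smul_left, h0, mul_zero]
        exact eq_zero_of_ip_self hb this
      · rw [hf, hb 0 (t + 1) (Or.inr (by omega)), zero_smul]

/-- Expansion in the multiplets. -/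
theorem expansion (hQ : 2 ≤ Q) {t : ℕ} {f : ℕ → ℕ → ℝ} (hb : InBox Q f) (ht : HasSum' t f) :
    f = ∑ m ∈ range (min t Q + 1), (ip Q (ladder Q m (t - m)) f
      / ip Q (ladder Q m (t - m)) (ladder Q m (t - m))) • ladder Q m (t - m) := by
  set S := ∑ m ∈ range (min t Q + 1), (ip Q (ladder Q m (t - m)) f
      / ip Q (ladder Q m (t - m)) (ladder Q m (t - m))) • ladder Q m (t - m) with hS
  have hSb : InBox Q S := by
    intro i a h
    simp only [hS, Finset.sum_apply, Pi.smul_apply, smul_eq_mul]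
    refine sum_eq_zero fun m hm => ?_
    rw [mem_range] at hm
    rw [inBox_ladder hQ (by omega) _ i a h, mul_zero]
  have hSt : HasSum' t S := by
    intro i a h
    simp only [hS, Finset.sum_apply, Pi.smul_apply, smul_eq_mul]
    refine sum_eq_zero fun m hm => ?_
    rw [mem_range] at hm
    rw [hasSum'_ladder Q m (t - m) i a (by omega), mul_zero]
  refine sub_eq_zero.1 (eq_zero_of_orth hQ t (f - S) ?_ ?_ fun m hmt hmQ => ?_)
  · intro i a h; simp [hb i a h, hSb i a h]
  · intro i a h; simp [ht i a h, hSt i a h]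
  · rw [ip_comm, ip_sub_left, ip_comm, ip_comm Q S, hS, ip_sum_right,
      sum_eq_single m]
    · rw [ip_smul_right]
      rcases eq_or_ne (ip Q (ladder Q m (t - m)) (ladder Q m (t - m))) 0 with h0 | h0
      · rw [eq_zero_of_ip_self (inBox_ladder hQ hmQ _) h0]
        simp [ip]
      · rw [div_mul_cancel₀ _ h0, sub_self]
    · intro m' hm' hne
      rw [mem_range] at hm'
      rw [ip_smul_right, ip_ladder hQ hmQ (by omega), if_neg (by omega), mul_zero]
    · intro h; exact absurd (mem_range.2 (by omega)) h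

theorem exchOp_smul (Q : ℕ) (c : ℝ) (f : ℕ → ℕ → ℝ) : exchOp Q (c • f) = c • exchOp Q f := by
  funext i a
  simp only [exchOp, Pi.smul_apply, smul_eq_mul, mul_sum]
  exact sum_congr rfl fun p _ => by ring

theorem exchOp_sum (Q : ℕ) {κ : Type*} (s : Finset κ) (F : κ → ℕ → ℕ → ℝ) :
    exchOp Q (∑ k ∈ s, F k) = ∑ k ∈ s, exchOp Q (F k) := by
  funext i a
  simp only [exchOp, Finset.sum_apply, sum_div, mul_sum]
  rw [sum_comm]

/-- The exchange form as a sum over (spectator, exchanged, common) orbitals. -/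
theorem ip_exchOp_triple {u : ℕ → ℕ → ℝ} (v : ℕ → ℕ → ℝ) (hu : InBox Q u) :
    ip Q (exchOp Q u) v
      = ∑ a ∈ range (Q + 1), ∑ b ∈ range (Q + 1), ∑ l ∈ range (Q + 1),
          (1 / (Q : ℝ)) * (((l : ℝ) - b) * ((l : ℝ) - a) * cS Q l
            * (u (a + l - 1) b / cP Q (a + l - 1)) * (v (b + l - 1) a / cP Q (b + l - 1))) := by
  classical
  simp only [ip, exchOp]
  rw [sum_comm]
  refine sum_congr rfl fun a ha => ?_
  rw [mem_range] at ha
  have ha0 : cS Q a ≠ 0 := (cS_pos (by omega)).ne'
  set G : ℕ × ℕ → ℝ := fun p => (1 / (Q : ℝ)) * (((p.2 : ℝ) - p.1) * ((p.2 : ℝ) - a) * cS Q p.2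
    * (u (a + p.2 - 1) p.1 / cP Q (a + p.2 - 1))) with hG
  have hA : ∀ i, ∑ p ∈ antidiagonal (i + 1), G p
      = ∑ p ∈ range (Q + 1) ×ˢ range (Q + 1), if p.1 + p.2 = i + 1 then G p else 0 := by
    intro i
    rw [← sum_filter]
    refine (sum_subset (fun p hp => ?_) (fun p hp hp' => ?_)).symm
    · exact HasAntidiagonal.mem_antidiagonal.2 (mem_filter.1 hp).2
    · rw [HasAntidiagonal.mem_antidiagonal] at hp
      simp only [mem_filter, mem_product, mem_range, hp, and_true] at hp'
      rcases lt_or_ge Q p.1 with h1 | h1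
      · simp [hG, hu _ p.1 (Or.inr h1)]
      · simp [hG, cS, Nat.choose_eq_zero_of_lt (show Q < p.2 by omega)]
  calc ∑ i ∈ range (2 * Q - 2 + 1), cS Q a / (Q : ℝ) * (∑ p ∈ antidiagonal (i + 1),
        ((p.2 : ℝ) - p.1) * ((p.2 : ℝ) - a) * cS Q p.2 * (u (a + p.2 - 1) p.1 / cP Q (a + p.2 - 1)))
          * v i a / (cP Q i * cS Q a)
      = ∑ i ∈ range (2 * Q - 2 + 1), (∑ p ∈ antidiagonal (i + 1), G p) * (v i a / cP Q i) := by
        refine sum_congr rfl fun i _ => ?_
        simp only [hG, ← mul_sum]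
        field_simp
    _ = ∑ p ∈ range (Q + 1) ×ˢ range (Q + 1), ∑ i ∈ range (2 * Q - 2 + 1),
          if p.1 + p.2 = i + 1 then G p * (v i a / cP Q i) else 0 := by
        simp only [hA, sum_mul, ite_mul, zero_mul]
        rw [sum_comm]
    _ = ∑ p ∈ range (Q + 1) ×ˢ range (Q + 1),
          G p * (v (p.1 + p.2 - 1) a / cP Q (p.1 + p.2 - 1)) := by
        refine sum_congr rfl fun p hp => ?_
        simp only [mem_product, mem_range] at hp
        by_cases hcase : 1 ≤ p.1 + p.2 ∧ p.1 + p.2 ≤ 2 * Q - 1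
        · rw [sum_eq_single (p.1 + p.2 - 1)]
          · rw [if_pos (by omega)]
          · intro i _ hne; rw [if_neg (by omega)]
          · intro h; exact absurd (mem_range.2 (by omega)) h
        · have : p.2 = p.1 := by omega
          rw [sum_eq_zero fun i hi => if_neg (by rw [mem_range] at hi; omega)]
          simp [hG, this]
    _ = _ := by
        rw [sum_product]
        exact sum_congr rfl fun b _ => sum_congr rfl fun l _ => by simp only [hG]; ring

/-- The exchange operator is symmetric. -/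
theorem ip_exchOp {f g : ℕ → ℕ → ℝ} (_hQ : 2 ≤ Q) (hf : InBox Q f) (hg : InBox Q g) :
    ip Q (exchOp Q f) g = ip Q f (exchOp Q g) := by
  rw [ip_exchOp_triple g hf, ip_comm Q f, ip_exchOp_triple f hg, sum_comm]
  exact sum_congr rfl fun a _ => sum_congr rfl fun b _ => sum_congr rfl fun l _ => by ring

theorem exchOp_zero (Q : ℕ) : exchOp Q 0 = 0 := by funext i a; simp [exchOp]

theorem exchOp_lift (hQ : 2 ≤ Q) {f : ℕ → ℕ → ℝ} (hf : InBox Q f) :
    exchOp Q (lift Q f) = lift Q (exchOp Q f) := by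
  have key : ∀ w, InBox Q w → ip Q (exchOp Q (lift Q f)) w = ip Q (lift Q (exchOp Q f)) w := by
    intro w hw
    rw [ip_exchOp hQ (inBox_lift hf) hw, ip_lift Q (inBox_exchOp hw), ip_lift Q hw,
      ip_exchOp hQ hf (inBox_lower hw)]
    congr 1
    funext i a
    exact lower_exchOp hw i a
  set d := exchOp Q (lift Q f) - lift Q (exchOp Q f) with hd
  have hb : InBox Q d := fun i a h => by
    simp [hd, inBox_exchOp (inBox_lift hf) i a h, inBox_lift (inBox_exchOp hf) i a h]
  have h0 : ip Q d d = 0 := by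
    rw [hd, ip_sub_left, key _ hb, sub_self]
  exact sub_eq_zero.1 (eq_zero_of_ip_self hb h0)

/-- `exch` is the eigenvalue of the exchange operator on every member of the multiplet. -/
theorem exchOp_ladder (hQ : 2 ≤ Q) {m : ℕ} (hm1 : 1 ≤ m) (hm : m ≤ Q) :
    ∀ g, exchOp Q (ladder Q m g) = exch Q m • ladder Q m g := by
  intro g
  induction g with
  | zero =>
      change exchOp Q (extremal m) = exch Q m • extremal m
      have hb := inBox_extremal hQ hm
      have hl : lower (exchOp Q (extremal m)) = 0 := by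
        funext i a
        rw [lower_exchOp hb, lower_extremal, exchOp_zero]
      rw [eq_smul_extremal_of_lower (hasSum'_exchOp (hasSum'_extremal m)) hl]
      congr 1
      obtain ⟨l, rfl⟩ : ∃ l, m = l + 1 := ⟨m - 1, by omega⟩
      obtain ⟨q, rfl⟩ : ∃ q, Q = q + 1 := ⟨Q - 1, by omega⟩
      rw [exchOp, Nat.antidiagonal_succ, sum_cons, sum_map, Nat.antidiagonal_zero, sum_singleton]
      simp only [Function.Embedding.coe_prodMap, Prod.map_fst, Prod.map_snd, Nat.succ_eq_add_one,
        Function.Embedding.refl_apply, Function.Embedding.coeFn_mk, zero_add, add_zero,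
        Nat.cast_zero, Nat.cast_one, extremal, if_true, cS, cP, exch, Nat.choose_zero_right,
        Nat.choose_one_right, Nat.add_sub_cancel, Nat.choose_self, Nat.choose_succ_self_right]
      have r1 := congrArg (Nat.cast : ℕ → ℝ) (Nat.add_one_mul_choose_eq q l)
      have r2 := congrArg (Nat.cast : ℕ → ℝ) (Nat.choose_succ_right_eq (2 * (q + 1) - 2) l)
      have r3 := congrArg (Nat.cast : ℕ → ℝ) (Nat.choose_succ_right_eq q l)
      rw [show 2 * (q + 1) - 2 = 2 * q by omega] at r2 ⊢
      rw [show 3 * (q + 1) - 2 - (l + 1) = 3 * q - l by omega]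
      push_cast [Nat.cast_sub (show l ≤ 2 * q by omega), Nat.cast_sub (show l ≤ q by omega),
        Nat.cast_sub (show l ≤ 3 * q by omega)] at r1 r2 r3 ⊢
      have hA : (0 : ℝ) < ((2 * q).choose l : ℕ) := by exact_mod_cast Nat.choose_pos (by omega)
      have hB : (0 : ℝ) < ((2 * q).choose (l + 1) : ℕ) := by exact_mod_cast Nat.choose_pos (by omega)
      have hl : (0 : ℝ) < (l : ℝ) + 1 := by positivity
      have hC : ((q + 1).choose (l + 1) : ℝ) = ((q : ℝ) + 1) * (q.choose l : ℝ) / ((l : ℝ) + 1) := by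
        rw [eq_div_iff hl.ne']; linarith
      have hD : (q.choose (l + 1) : ℝ) = (q.choose l : ℝ) * ((q : ℝ) - l) / ((l : ℝ) + 1) := by
        rw [eq_div_iff hl.ne']; linarith
      have hE : ((2 * q).choose (l + 1) : ℝ)
          = ((2 * q).choose l : ℝ) * (2 * (q : ℝ) - l) / ((l : ℝ) + 1) := by
        rw [eq_div_iff hl.ne']; linarith
      have hnz : 2 * (q : ℝ) - l ≠ 0 := by
        have h1 : (l : ℝ) ≤ q := by exact_mod_cast (by omega : l ≤ q)
        have h2 : (1 : ℝ) ≤ q := by exact_mod_cast (by omega : 1 ≤ q)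
        linarith
      have hnz' : (q : ℝ) * 2 - l ≠ 0 := by rwa [mul_comm]
      rw [hC, hD, hE, pow_succ]
      field_simp
      ring_nf
  | succ g ih =>
      rw [ladder_succ, exchOp_lift hQ (inBox_ladder hQ hm g), ih, lift_smul]

/-- The eigenvalue on channel `m`, including `m = 0`. -/
noncomputable def exchEig (Q m : ℕ) : ℝ := if m = 0 then 1 else exch Q m

theorem exchOp_ladder_zero (hQ : 2 ≤ Q) : ∀ g, exchOp Q (ladder Q 0 g) = ladder Q 0 g := by
  intro g
  induction g with
  | zero =>
      change exchOp Q (extremal 0) = extremal 0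
      have hb := inBox_extremal hQ (Nat.zero_le Q)
      have hl : lower (exchOp Q (extremal 0)) = 0 := by
        funext i a
        rw [lower_exchOp hb, lower_extremal, exchOp_zero]
      rw [eq_smul_extremal_of_lower (hasSum'_exchOp (hasSum'_extremal 0)) hl]
      have hQ' : (Q : ℝ) ≠ 0 := by exact_mod_cast (by omega : Q ≠ 0)
      have : exchOp Q (extremal 0) 0 0 = 1 := by
        rw [exchOp, Nat.antidiagonal_succ, sum_cons, sum_map, Nat.antidiagonal_zero, sum_singleton]
        simp [extremal, cS, cP]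
        field_simp
      rw [this, one_smul]
  | succ g ih => rw [ladder_succ, exchOp_lift hQ (inBox_ladder hQ (Nat.zero_le Q) g), ih]

/-- Spectral form of the exchange operator. -/
theorem ip_exchOp_self (hQ : 2 ≤ Q) {t : ℕ} {f : ℕ → ℕ → ℝ} (hb : InBox Q f) (ht : HasSum' t f) :
    ip Q f (exchOp Q f) = ∑ m ∈ range (min t Q + 1),
      exchEig Q m
        * (ip Q (ladder Q m (t - m)) f ^ 2 / ip Q (ladder Q m (t - m)) (ladder Q m (t - m))) := by
  conv_lhs => arg 3; rw [expansion hQ hb ht]
  rw [exchOp_sum, ip_sum_right]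
  refine sum_congr rfl fun m hm => ?_
  rw [mem_range] at hm
  rw [exchOp_smul, ip_smul_right, exchEig]
  split_ifs with h0
  · subst h0
    rw [exchOp_ladder_zero hQ, ip_comm Q f]
    ring
  · rw [exchOp_ladder hQ (by omega) (by omega), ip_smul_right, ip_comm Q f]
    ring

/-- Parseval. -/
theorem ip_self_eq (hQ : 2 ≤ Q) {t : ℕ} {f : ℕ → ℕ → ℝ} (hb : InBox Q f) (ht : HasSum' t f) :
    ip Q f f = ∑ m ∈ range (min t Q + 1),
      ip Q (ladder Q m (t - m)) f ^ 2 / ip Q (ladder Q m (t - m)) (ladder Q m (t - m)) := by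
  conv_lhs => arg 3; rw [expansion hQ hb ht]
  rw [ip_sum_right]
  refine sum_congr rfl fun m _ => ?_
  rw [ip_smul_right, ip_comm Q f]
  ring

/-- The pair at the pole with the particle in orbital `k`, as a raw vector. -/
def pole (k i a : ℕ) : ℝ := if i = 0 ∧ a = k then 1 else 0

theorem ip_pole {k : ℕ} (hk : k ≤ Q) (f : ℕ → ℕ → ℝ) :
    ip Q f (pole k) = f 0 k / cS Q k := by
  simp only [ip]
  rw [sum_eq_single 0, sum_eq_single k]
  · simp [pole, cP]
  · intro a _ ha; simp [pole, ha]
  · intro h; exact absurd (mem_range.2 (by omega)) h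
  · intro i _ hi; exact sum_eq_zero fun a _ => by simp [pole, hi]
  · intro h; exact absurd (mem_range.2 (by omega)) h

theorem ladder_zero_row (Q m : ℕ) :
    ∀ g, ladder Q m g 0 (m + g) = ((Q - m).descFactorial g : ℕ)
  | 0 => by simp [ladder, extremal]
  | g + 1 => by
      rw [ladder_succ, lift, if_pos rfl, if_neg (by omega), show m + (g + 1) - 1 = m + g by omega,
        ladder_zero_row Q m g, Nat.descFactorial_succ, show Q - (m + g) = Q - m - g by omega]
      push_cast
      ring

theorem prod_eq_descFactorial (M g : ℕ) (hg : g ≤ M) :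
    ∏ u ∈ range g, ((M : ℝ) - u) = ((M.descFactorial g : ℕ) : ℝ) := by
  rw [Nat.descFactorial_eq_prod_range, Nat.cast_prod]
  refine prod_congr rfl fun u hu => ?_
  rw [mem_range] at hu
  rw [Nat.cast_sub (by omega)]

theorem ip_extremal (hQ : 2 ≤ Q) {m : ℕ} (hm : m ≤ Q) :
    ip Q (extremal m) (extremal m) = ∑ i ∈ range (m + 1), hw Q m i ^ 2 := by
  simp only [ip]
  refine (sum_subset (s₁ := range (m + 1)) (range_mono (by omega)) fun i hi hi' => ?_).symm.trans ?_
  · rw [mem_range] at hi hi'
    exact sum_eq_zero fun a _ => by simp [extremal, show i + a ≠ m by omega]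
  refine sum_congr rfl fun i hi => ?_
  rw [mem_range] at hi
  rw [sum_eq_single (m - i)]
  · rw [extremal, if_pos (by omega), hw, div_pow, Real.sq_sqrt (by positivity), cP, cS]
    ring
  · intro a _ ha; simp [extremal, show i + a ≠ m by omega]
  · intro h; exact absurd (mem_range.2 (by omega)) h

/-- The pole weight of a multiplet member, times `(2J+1)/(2L+1)`, is the symbol. -/
theorem pole_weight (hQ : 2 ≤ Q) {m g : ℕ} (hmg : m + g ≤ Q) :
    ((2 * Q - 1 : ℕ) : ℝ) / ((3 * Q - 1 - 2 * m : ℕ) : ℝ) * (cS Q (m + g)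
        * ip Q (ladder Q m g) (pole (m + g)) ^ 2 / ip Q (ladder Q m g) (ladder Q m g))
      = symb Q m g := by
  have hm : m ≤ Q := by omega
  have hC : (0 : ℝ) < cS Q (m + g) := cS_pos hmg
  rw [ip_ladder hQ hm hm, if_pos ⟨rfl, rfl⟩, ip_extremal hQ hm, ip_pole hmg, ladder_zero_row,
    symb_eq Q m g hQ hm]
  have hpr : ∏ u ∈ range g, (3 * (Q : ℝ) - 2 - 2 * m - u)
      = (((3 * Q - 2 - 2 * m).descFactorial g : ℕ) : ℝ) := by
    rw [← prod_eq_descFactorial _ _ (by omega)]
    refine prod_congr rfl fun u _ => ?_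
    rw [Nat.cast_sub (by omega : 2 * m ≤ 3 * Q - 2), Nat.cast_sub (by omega : 2 ≤ 3 * Q)]
    push_cast; ring
  rw [ladderFac, hpr, hw_normSq Q m hQ hm]
  have hk : ((Q.choose (m + g) : ℕ) : ℝ) * (((m + g).choose g : ℕ) : ℝ)
      = ((Q.choose m : ℕ) : ℝ) * (((Q - m).choose g : ℕ) : ℝ) := by
    rw [← Nat.choose_symm_add]
    exact_mod_cast Nat.choose_mul (n := Q) (k := m + g) (s := m) (by omega) |>.trans (by simp)
  have n1 : (0 : ℝ) < ((3 * Q - 1 - m).choose m : ℕ) := by exact_mod_cast Nat.choose_pos (by omega)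
  have n2 : (0 : ℝ) < ((2 * Q - 2).choose m : ℕ) := by exact_mod_cast Nat.choose_pos (by omega)
  have n3 : (0 : ℝ) < (Q.choose m : ℕ) := by exact_mod_cast Nat.choose_pos hm
  have n4 : (0 : ℝ) < ((3 * Q - 2 - 2 * m).choose g : ℕ) := by
    exact_mod_cast Nat.choose_pos (by omega)
  rw [Nat.descFactorial_eq_factorial_mul_choose, Nat.descFactorial_eq_factorial_mul_choose, hw]
  simp only [pow_zero, Nat.choose_zero_right, Nat.sub_zero, cS] at hC ⊢
  push_cast at hk hC n1 n2 n3 n4 ⊢
  rw [div_pow, div_pow, Real.sq_sqrt (by positivity)]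
  field_simp
  linear_combination (-(((Q - m).choose g : ℕ) : ℝ) * ((2 * Q - 1 : ℕ) : ℝ)
    * ((3 * Q - 1 - 2 * m : ℕ) : ℝ)⁻¹) * hk

/-- The tail inequality: on orbital sum `t` the exchange form is at most the channels below `M`
plus the symbol of `d` on the channels from `M` on. -/
theorem exchOp_tail_le (hQ : 2 ≤ Q) {M : ℕ} (hM : 1 ≤ M) (d : ℕ → ℝ)
    (hd : ∀ m, M ≤ m → m ≤ Q → exch Q m ≤ ∑ p ∈ range (Q - m + 1), d (m + p) * symb Q m p)
    {t : ℕ} {f : ℕ → ℕ → ℝ} (hb : InBox Q f) (ht : HasSum' t f) :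
    ip Q f (exchOp Q f) ≤ ∑ m ∈ range (min t Q + 1),
      (if m < M then exchEig Q m else ∑ p ∈ range (Q - m + 1), d (m + p) * symb Q m p)
        * (ip Q (ladder Q m (t - m)) f ^ 2 / ip Q (ladder Q m (t - m)) (ladder Q m (t - m))) := by
  rw [ip_exchOp_self hQ hb ht]
  refine sum_le_sum fun m hm => ?_
  rw [mem_range] at hm
  refine mul_le_mul_of_nonneg_right ?_ (div_nonneg (sq_nonneg _) (ip_self_nonneg Q _))
  split_ifs with h
  · exact le_rfl
  · rw [exchEig, if_neg (by omega)]
    exact hd m (by omega) (by omega)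

end Vale.Agent.P359.Sphere
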