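import Vale.Agent.P359.Sphere.Ladder
import Vale.Agent.P359.Kernel.Expand

/-!
# P359: the shared-particle term as the exchange form of pair-contracted slices
-/

open Finset Function

namespace Vale.Agent.P359.Sphere

open Upper Kernel

variable {n Q : ℕ}

/-- The state contracted with the pair `i, j`, as a polynomial in (pair, particle `k`). -/
noncomputable def slice (ψ : Orbs n Q → ℝ) (i j k : Fin n) (x : Orbs n Q) (p a : ℕ) : ℝ :=
  if h : a ≤ Q ∧ p ≤ 2 * Q - 2 then
    amp ψ i j (p + 1) (update x k ⟨a, Nat.lt_succ_of_le h.1⟩) * √(Q.choose a : ℝ)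
  else 0

theorem inBox_slice (ψ : Orbs n Q → ℝ) (i j k : Fin n) (x : Orbs n Q) :
    InBox Q (slice ψ i j k x) := fun p a h => by
  rw [slice, dif_neg (by omega)]

/-- Splitting a sum over configurations at the entry `k`. -/
lemma sum_fiber_one (k : Fin n) (F : Orbs n Q → ℝ) :
    ∑ y, F y = ∑ x : Orbs n Q, if x k = 0 then ∑ a, F (update x k a) else 0 := by
  rw [← Finset.sum_filter, ← Finset.sum_product']
  refine Finset.sum_nbij' (fun y => (update y k 0, y k)) (fun p => update p.1 k p.2) ?_ ?_ ?_ ?_ ?_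
  · intro y _; simp
  · intro p _; simp
  · intro y _; simp
  · rintro ⟨x, a⟩ hx
    simp only [Finset.mem_product, Finset.mem_filter, Finset.mem_univ, true_and, and_true] at hx
    simp only [update_self, update_idem, Prod.mk.injEq, and_true]
    rw [← hx, update_eq_self]
  · intro y _; simp

lemma pairVec_eq_zero_of_top {Q s : ℕ} (k l : Fin (Q + 1)) (h : s = 0 ∨ 2 * Q - 1 < s) :
    pairVec Q s k l = 0 := by
  unfold pairVec
  split_ifs with hs
  · have := Nat.lt_succ_iff.1 k.2
    have := Nat.lt_succ_iff.1 l.2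
    rw [show (k : ℕ) = l by omega, sub_self, mul_zero]
  · rfl

lemma pairProj_single (i j : Fin n) (ψ : Orbs n Q → ℝ) (y : Orbs n Q) :
    pairProj i j ψ y = amp ψ i j ((y i : ℕ) + y j) y
      * pairVec Q ((y i : ℕ) + y j) (y i) (y j) / pairNorm Q ((y i : ℕ) + y j) := by
  rw [pairProj, Finset.sum_eq_single ((y i : ℕ) + y j)]
  · intro s _ hs
    rw [pairVec, if_neg (Ne.symm hs)]
    simp
  · intro h
    exact absurd (Finset.mem_range.2 (by have := (y i).2; have := (y j).2; omega)) h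

/-- Cyclic relabelling of a pair amplitude. -/
lemma amp_cycle {ψ : Orbs n Q → ℝ} (hψ : IsFermionic ψ) {i j k : Fin n} (hij : i ≠ j)
    (hki : k ≠ i) (hkj : k ≠ j) (s : ℕ) (z : Orbs n Q) (b : Fin (Q + 1)) :
    amp ψ j k s (update z i b) = amp ψ i j s (update z k b) := by
  unfold amp
  refine sum_congr rfl fun p _ => sum_congr rfl fun r _ => ?_
  congr 1
  set π : Equiv.Perm (Fin n) := Equiv.swap i k * Equiv.swap j k with hπ
  have hsign : ((π.sign : ℤ) : ℝ) = 1 := by
    rw [hπ, Equiv.Perm.sign_mul, Equiv.Perm.sign_swap hki.symm, Equiv.Perm.sign_swap hkj.symm]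
    simp
  have hj : π j = i := by
    rw [hπ, Equiv.Perm.mul_apply, Equiv.swap_apply_left, Equiv.swap_apply_right]
  have hk : π k = j := by
    rw [hπ, Equiv.Perm.mul_apply, Equiv.swap_apply_right,
      Equiv.swap_apply_of_ne_of_ne hij.symm hkj.symm]
  have hi : π i = k := by
    rw [hπ, Equiv.Perm.mul_apply, Equiv.swap_apply_of_ne_of_ne hij hki.symm, Equiv.swap_apply_left]
  have hcomp : update (update (update z k b) i p) j r ∘ π
      = update (update (update z i b) j p) k r := by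
    funext q
    rw [comp_apply]
    rcases eq_or_ne q j with hqj | hqj
    · subst hqj
      rw [hj, update_of_ne hij, update_self, update_of_ne hkj.symm, update_self]
    rcases eq_or_ne q k with hqk | hqk
    · subst hqk
      rw [hk, update_self, update_self]
    rcases eq_or_ne q i with hqi | hqi
    · subst hqi
      rw [hi, update_of_ne hkj, update_of_ne hki, update_self, update_of_ne hqk, update_of_ne hqj,
        update_self]
    · have hq : π q = q := by
        rw [hπ, Equiv.Perm.mul_apply, Equiv.swap_apply_of_ne_of_ne hqj hqk,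
          Equiv.swap_apply_of_ne_of_ne hqi hqk]
      rw [hq]
      simp [update_of_ne hqj, update_of_ne hqi, update_of_ne hqk]
  rw [← hcomp, hψ, hsign, one_mul]

lemma amp_update_right (ψ : Orbs n Q → ℝ) (i j : Fin n) (s : ℕ) (z : Orbs n Q) (r : Fin (Q + 1)) :
    amp ψ i j s (update z j r) = amp ψ i j s z := by
  unfold amp
  refine sum_congr rfl fun p _ => sum_congr rfl fun q _ => ?_
  congr 2
  rcases eq_or_ne i j with rfl | hij
  · simp
  · rw [update_comm hij.symm, update_idem]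

lemma amp_update_left (ψ : Orbs n Q → ℝ) (i j : Fin n) (s : ℕ) (z : Orbs n Q) (r : Fin (Q + 1)) :
    amp ψ i j s (update z i r) = amp ψ i j s z := by
  simp only [amp, update_idem]

lemma amp_eq_zero_of_top (ψ : Orbs n Q → ℝ) (i j : Fin n) {s : ℕ} (z : Orbs n Q)
    (h : s = 0 ∨ 2 * Q - 1 < s) : amp ψ i j s z = 0 := by
  refine sum_eq_zero fun p _ => sum_eq_zero fun q _ => ?_
  rw [pairVec_eq_zero_of_top p q h, zero_mul]

/-- The slice at `(pair sum - 1, particle)`. -/
lemma slice_apply (ψ : Orbs n Q → ℝ) (i j k : Fin n) (x : Orbs n Q) (a : Fin (Q + 1)) {s : ℕ}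
    (hs : 1 ≤ s) :
    slice ψ i j k x (s - 1) a = amp ψ i j s (update x k a) * √(Q.choose (a : ℕ) : ℝ) := by
  by_cases h : s - 1 ≤ 2 * Q - 2
  · rw [slice, dif_pos ⟨Nat.lt_succ_iff.1 a.2, h⟩, show s - 1 + 1 = s by omega]
  · rw [slice, dif_neg (by tauto), amp_eq_zero_of_top ψ i j _ (Or.inr (by omega)), zero_mul]

/-- **Bridge.** The term of two pairs sharing `j` is minus the exchange form of the slices. -/
theorem cross_eq_exch (hQ : 1 ≤ Q) {ψ : Orbs n Q → ℝ} (hψ : IsFermionic ψ) {i j k : Fin n}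
    (hij : i ≠ j) (hki : k ≠ i) (hkj : k ≠ j) :
    cross ψ i j j k = -(1 / (4 * (Q : ℝ))) * ∑ x : Orbs n Q,
      if x i = 0 ∧ x j = 0 ∧ x k = 0 then
        ip Q (slice ψ i j k x) (exchOp Q (slice ψ i j k x)) else 0 := by
  rw [cross, sum_fiber_one k, mul_sum]
  have hsplit : ∀ G : Orbs n Q → ℝ, (∑ x : Orbs n Q, if x k = 0 then G x else 0)
      = ∑ x : Orbs n Q, if x i = 0 ∧ x j = 0 ∧ x k = 0 then
          ∑ b, ∑ l, G (update (update x i b) j l) else 0 := by
    intro G
    rw [sum_fiber hij]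
    refine sum_congr rfl fun x _ => ?_
    by_cases h : x i = 0 ∧ x j = 0
    · by_cases hk : x k = 0
      · simp [h.1, h.2, hk, update_of_ne hkj, update_of_ne hki]
      · simp [h.1, h.2, hk, update_of_ne hkj, update_of_ne hki]
    · rw [if_neg h, if_neg (by tauto)]
  rw [hsplit]
  refine sum_congr rfl fun x _ => ?_
  split_ifs with hx
  swap
  · rw [mul_zero]
  rw [ip_comm Q, ip_exchOp_triple _ (inBox_slice ψ i j k x), mul_sum]
  simp only [← Fin.sum_univ_eq_sum_range, mul_sum]
  conv_lhs => enter [2, b]; rw [sum_comm]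
  rw [sum_comm]
  refine sum_congr rfl fun a _ => sum_congr rfl fun b _ => sum_congr rfl fun l _ => ?_
  set z := update (update (update x i b) j l) k a with hz
  have zi : z i = b := by rw [hz, update_of_ne hki.symm, update_of_ne hij, update_self]
  have zj : z j = l := by rw [hz, update_of_ne hkj.symm, update_self]
  have zk : z k = a := by rw [hz, update_self]
  have e1 : ∀ s, amp ψ i j s z = amp ψ i j s (update x k a) := by
    intro s
    rw [hz, update_comm hkj.symm, amp_update_right, update_comm hki.symm, amp_update_left]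
  have e2 : ∀ s, amp ψ j k s z = amp ψ i j s (update x k b) := by
    intro s
    rw [hz, amp_update_right ψ j k, amp_update_left ψ j k, amp_cycle hψ hij hki hkj]
  rw [pairProj_single, pairProj_single, zi, zj, zk, e1, e2, add_comm (a : ℕ) l]
  by_cases h1 : (b : ℕ) + l = 0
  · rw [amp_eq_zero_of_top ψ i j _ (Or.inl h1), show ((b : ℕ) : ℝ) = 0 by
      rw [show (b : ℕ) = 0 by omega]; simp, show ((l : ℕ) : ℝ) = 0 by
      rw [show (l : ℕ) = 0 by omega]; simp]
    simp
  by_cases h2 : (l : ℕ) + a = 0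
  · rw [amp_eq_zero_of_top ψ i j _ (Or.inl h2), show ((a : ℕ) : ℝ) = 0 by
      rw [show (a : ℕ) = 0 by omega]; simp, show ((l : ℕ) : ℝ) = 0 by
      rw [show (l : ℕ) = 0 by omega]; simp]
    simp
  rw [slice_apply ψ i j k x b (show 1 ≤ (l : ℕ) + a by omega),
    slice_apply ψ i j k x a (show 1 ≤ (b : ℕ) + l by omega),
    show pairNorm Q ((b : ℕ) + l) = 2 * Q * cP Q ((b : ℕ) + l - 1) by
      conv_lhs => rw [show (b : ℕ) + l = ((b : ℕ) + l - 1) + 1 by omega]
      rw [pairNorm_succ Q _ hQ]; rfl,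
    show pairNorm Q ((l : ℕ) + a) = 2 * Q * cP Q ((l : ℕ) + a - 1) by
      conv_lhs => rw [show (l : ℕ) + a = ((l : ℕ) + a - 1) + 1 by omega]
      rw [pairNorm_succ Q _ hQ]; rfl,
    pairVec, pairVec, if_pos rfl, if_pos rfl, cS,
    Real.sqrt_mul (Nat.cast_nonneg _), Real.sqrt_mul (Nat.cast_nonneg _)]
  have hs : √(Q.choose (l : ℕ) : ℝ) * √(Q.choose (l : ℕ) : ℝ) = (Q.choose (l : ℕ) : ℝ) :=
    Real.mul_self_sqrt (Nat.cast_nonneg _)
  generalize hA : amp ψ i j ((b : ℕ) + l) (update x k a) = A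
  generalize hB : amp ψ i j ((l : ℕ) + a) (update x k b) = B
  generalize hP : cP Q ((b : ℕ) + l - 1) = P
  generalize hR : cP Q ((l : ℕ) + a - 1) = R
  generalize hL : √(Q.choose (l : ℕ) : ℝ) = L at hs ⊢
  generalize hM : (Q.choose (l : ℕ) : ℝ) = M at hs ⊢
  subst hs
  ring

/-- The diagonal term is the norm of the slices. -/
theorem cross_diag_eq (hQ : 1 ≤ Q) (ψ : Orbs n Q → ℝ) {i j k : Fin n}
    (hij : i ≠ j) (hki : k ≠ i) (hkj : k ≠ j) :
    cross ψ i j i j = (1 / (2 * (Q : ℝ))) * ∑ x : Orbs n Q,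
      if x i = 0 ∧ x j = 0 ∧ x k = 0 then ip Q (slice ψ i j k x) (slice ψ i j k x) else 0 := by
  rw [cross_diag hij, sum_mul_pairProj hij, Finset.sum_comm, sum_fiber_one k, mul_sum]
  refine sum_congr rfl fun x _ => ?_
  by_cases hk : x k = 0
  swap
  · rw [if_neg hk, if_neg (by tauto), mul_zero]
  rw [if_pos hk]
  simp only [update_of_ne hki.symm, update_of_ne hkj.symm]
  by_cases h : x i = 0 ∧ x j = 0
  swap
  · rw [if_neg (by tauto), mul_zero]
    simp [h]
  simp only [if_pos h]
  rw [if_pos ⟨h.1, h.2, hk⟩, Finset.sum_comm, ip, mul_sum,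
    show 2 * Q - 2 + 1 = 2 * Q - 1 by omega]
  have htop : ∀ s, (s = 0 ∨ 2 * Q - 1 < s) → ∀ a : Fin (Q + 1),
      amp ψ i j s (update x k a) = 0 := fun s hs a => amp_eq_zero_of_top ψ i j _ hs
  rw [show 2 * Q + 1 = (2 * Q - 1 + 1) + 1 by omega, sum_range_succ,
    sum_range_succ' _ (2 * Q - 1)]
  simp only [htop 0 (Or.inl rfl), htop (2 * Q - 1 + 1) (Or.inr (by omega)), mul_zero, zero_div,
    sum_const_zero, add_zero]
  refine sum_congr rfl fun p hp => ?_
  rw [mem_range] at hp
  rw [mul_sum, ← Fin.sum_univ_eq_sum_range]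
  refine sum_congr rfl fun a _ => ?_
  have hs := slice_apply ψ i j k x a (show 1 ≤ p + 1 by omega)
  rw [Nat.add_sub_cancel] at hs
  rw [hs, pairNorm_succ Q _ hQ, cP, cS]
  have hc : (0 : ℝ) < (Q.choose (a : ℕ) : ℝ) :=
    Nat.cast_pos.2 (Nat.choose_pos (Nat.lt_succ_iff.1 a.2))
  field_simp
  rw [Real.sq_sqrt hc.le]

end Vale.Agent.P359.Sphere
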