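import Mathlib

/-!
# P359: the three-body tail on the sphere, uniformly in the flux

`exch Q m` is the eigenvalue of the pair/particle exchange on total spin `(Q-1) + Q/2 - m`
(one minus the three-body eigenvalue), `symb Q m p` the eigenvalue on the same channel of the
invariant average of: pair at the pole, particle in orbital `m + p`, normalised to unit pair density.
-/

open Filter Finset
open scoped Topology Nat

namespace Vale.Agent.P359.Sphere

/-- The exchange eigenvalue `K(Q,m)`, meant for `1 ≤ m ≤ Q`. -/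
noncomputable def exch (Q m : ℕ) : ℝ :=
  (-1) ^ m * ((((Q - 1).choose m : ℕ) : ℝ)
    - ((3 * Q - 2 - m : ℕ) : ℝ) * ((Q - 1).choose (m - 1) : ℕ)) / ((2 * Q - 2).choose m : ℕ)

/-- The symbol eigenvalue `e(Q,m,p)`. -/
noncomputable def symb (Q m p : ℕ) : ℝ :=
  ((2 * Q - 1 : ℕ) : ℝ) / ((3 * Q - 1 - 2 * m : ℕ) : ℝ)
    * (((2 * Q - 2).choose m : ℕ) / ((3 * Q - 1 - m).choose m : ℕ))
    * (((m + p).choose p : ℕ) * ((Q - m).choose p : ℕ) / ((3 * Q - 2 - 2 * m).choose p : ℕ))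

theorem symb_nonneg (Q m p : ℕ) : 0 ≤ symb Q m p := by unfold symb; positivity

theorem two_pow_mul_choose_le (n m : ℕ) : 2 ^ m * n.choose m ≤ (2 * n).choose m := by
  induction m with
  | zero => simp
  | succ m ih =>
      apply Nat.le_of_mul_le_mul_right _ (Nat.succ_pos m)
      rw [Nat.choose_succ_right_eq (2 * n) m, pow_succ, mul_assoc (2 ^ m * 2),
        Nat.choose_succ_right_eq n m]
      calc 2 ^ m * 2 * (n.choose m * (n - m))
          = 2 ^ m * n.choose m * (2 * (n - m)) := by ring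
        _ ≤ (2 * n).choose m * (2 * n - m) := Nat.mul_le_mul ih (by omega)

/-- Uniform bound `K(Q,m) ≤ 4 m 2^{-m}`. -/
theorem abs_exch_le (Q m : ℕ) (hm : 1 ≤ m) (hQ : 2 ≤ Q) (hmQ : m ≤ Q) :
    |exch Q m| ≤ 4 * m / 2 ^ m := by
  obtain ⟨n, rfl⟩ : ∃ n, Q = n + 1 := ⟨Q - 1, by omega⟩
  obtain ⟨l, rfl⟩ : ∃ l, m = l + 1 := ⟨m - 1, by omega⟩
  rw [exch, show n + 1 - 1 = n by omega, show l + 1 - 1 = l by omega,
    show 2 * (n + 1) - 2 = 2 * n by omega, show 3 * (n + 1) - 2 - (l + 1) = 3 * n - l by omega]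
  have hd : (0 : ℝ) < ((2 * n).choose (l + 1) : ℕ) := by
    exact_mod_cast Nat.choose_pos (by omega)
  have h1 : n.choose (l + 1) * 2 ^ (l + 1) ≤ 4 * (l + 1) * (2 * n).choose (l + 1) := by
    rw [mul_comm]
    exact (two_pow_mul_choose_le n (l + 1)).trans (Nat.le_mul_of_pos_left _ (by omega))
  have h2 : (3 * n - l) * n.choose l * 2 ^ (l + 1) ≤ 4 * (l + 1) * (2 * n).choose (l + 1) := by
    have hs := Nat.choose_succ_right_eq (2 * n) l
    calc (3 * n - l) * n.choose l * 2 ^ (l + 1)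
        ≤ 2 * (2 * n - l) * n.choose l * 2 ^ (l + 1) := by gcongr; omega
      _ = 4 * (2 * n - l) * (2 ^ l * n.choose l) := by ring
      _ ≤ 4 * (2 * n - l) * (2 * n).choose l := Nat.mul_le_mul_left _ (two_pow_mul_choose_le n l)
      _ = _ := by rw [mul_assoc 4 (2 * n - l), mul_comm (2 * n - l), ← hs]; ring
  have h1' : ((n.choose (l + 1) : ℕ) : ℝ) * 2 ^ (l + 1)
      ≤ 4 * ((l : ℝ) + 1) * ((2 * n).choose (l + 1) : ℕ) := by exact_mod_cast h1
  have h2' : ((3 * n - l : ℕ) : ℝ) * ((n.choose l : ℕ) : ℝ) * 2 ^ (l + 1)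
      ≤ 4 * ((l : ℝ) + 1) * ((2 * n).choose (l + 1) : ℕ) := by exact_mod_cast h2
  rw [abs_div, abs_mul, abs_pow, abs_neg, abs_one, one_pow, one_mul, abs_of_pos hd,
    div_le_div_iff₀ hd (by positivity)]
  push_cast
  have hn1 : (0 : ℝ) ≤ ((n.choose (l + 1) : ℕ) : ℝ) * 2 ^ (l + 1) := by positivity
  have hn2 : (0 : ℝ) ≤ ((3 * n - l : ℕ) : ℝ) * ((n.choose l : ℕ) : ℝ) * 2 ^ (l + 1) := by
    positivity
  rcases abs_cases (((n.choose (l + 1) : ℕ) : ℝ)
      - ((3 * n - l : ℕ) : ℝ) * ((n.choose l : ℕ) : ℝ)) with ⟨he, -⟩ | ⟨he, -⟩ <;>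
    rw [he] <;> nlinarith

theorem three_pow_mul_choose_ge (Q m : ℕ) (hm : 3 ≤ m) (hmQ : m ≤ Q) :
    ∀ r ≤ m, 2 ^ r * (3 * Q - 1 - m).choose r ≤ 3 ^ r * (2 * Q - 2).choose r := by
  intro r hr
  induction r with
  | zero => simp
  | succ r ih =>
      apply Nat.le_of_mul_le_mul_right _ (Nat.succ_pos r)
      rw [mul_assoc, Nat.choose_succ_right_eq, mul_assoc, Nat.choose_succ_right_eq]
      calc 2 ^ (r + 1) * ((3 * Q - 1 - m).choose r * (3 * Q - 1 - m - r))
          = 2 ^ r * (3 * Q - 1 - m).choose r * (2 * (3 * Q - 1 - m - r)) := by ring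
        _ ≤ 3 ^ r * (2 * Q - 2).choose r * (3 * (2 * Q - 2 - r)) :=
            Nat.mul_le_mul (ih (by omega)) (by omega)
        _ = _ := by ring

/-- The diagonal symbol entry is bounded below uniformly up to `m = Q`. -/
theorem symb_zero_ge (Q m : ℕ) (hm : 3 ≤ m) (hmQ : m ≤ Q) :
    (2 / 3 : ℝ) ^ (m + 1) ≤ symb Q m 0 := by
  have h := three_pow_mul_choose_ge Q m hm hmQ m le_rfl
  have hA : (2 / 3 : ℝ) ≤ ((2 * Q - 1 : ℕ) : ℝ) / ((3 * Q - 1 - 2 * m : ℕ) : ℝ) := by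
    have hd : (0 : ℝ) < ((3 * Q - 1 - 2 * m : ℕ) : ℝ) := by exact_mod_cast (by omega)
    rw [div_le_div_iff₀ (by norm_num) hd]
    exact_mod_cast (by omega : 2 * (3 * Q - 1 - 2 * m) ≤ (2 * Q - 1) * 3)
  have hB : (2 / 3 : ℝ) ^ m
      ≤ (((2 * Q - 2).choose m : ℕ) : ℝ) / ((3 * Q - 1 - m).choose m : ℕ) := by
    have hd : (0 : ℝ) < (((3 * Q - 1 - m).choose m : ℕ) : ℝ) := by
      exact_mod_cast Nat.choose_pos (by omega)
    rw [div_pow, div_le_div_iff₀ (by positivity) hd, mul_comm (((2 * Q - 2).choose m : ℕ) : ℝ)]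
    exact_mod_cast h
  rw [symb, pow_succ']
  simp only [Nat.choose_zero_right, Nat.cast_one, mul_one, div_one]
  exact mul_le_mul hA hB (by positivity) (by positivity)

theorem tendsto_sub_div {f : ℕ → ℕ} {a : ℝ}
    (hf : Tendsto (fun Q => (f Q : ℝ) / Q) atTop (𝓝 a)) (i : ℕ) :
    Tendsto (fun Q => ((f Q - i : ℕ) : ℝ) / Q) atTop (𝓝 a) := by
  have h0 : Tendsto (fun Q : ℕ => (i : ℝ) / Q) atTop (𝓝 0) :=
    tendsto_const_nhds.div_atTop tendsto_natCast_atTop_atTop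
  have h1 : Tendsto (fun Q => (f Q : ℝ) / Q - (i : ℝ) / Q) atTop (𝓝 a) := by
    simpa using hf.sub h0
  refine tendsto_of_tendsto_of_tendsto_of_le_of_le h1 hf (fun Q => ?_) (fun Q => ?_)
  · dsimp only
    rw [← sub_div]
    gcongr
    rw [sub_le_iff_le_add]
    exact_mod_cast (by omega : f Q ≤ f Q - i + i)
  · dsimp only
    gcongr
    omega

theorem tendsto_linear (c d : ℕ) :
    Tendsto (fun Q : ℕ => ((c * Q - d : ℕ) : ℝ) / Q) atTop (𝓝 c) := by
  refine tendsto_sub_div (f := fun Q => c * Q) ?_ d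
  refine tendsto_const_nhds.congr' ?_
  filter_upwards [eventually_gt_atTop 0] with Q hQ
  push_cast
  field_simp

theorem tendsto_choose_div {f : ℕ → ℕ} {a : ℝ}
    (hf : Tendsto (fun Q => (f Q : ℝ) / Q) atTop (𝓝 a)) (m : ℕ) :
    Tendsto (fun Q => ((f Q).choose m : ℝ) / (Q : ℝ) ^ m) atTop (𝓝 (a ^ m / (m ! : ℝ))) := by
  have h : Tendsto (fun Q => (∏ i ∈ range m, ((f Q - i : ℕ) : ℝ) / Q) / (m ! : ℝ)) atTop
      (𝓝 (a ^ m / (m ! : ℝ))) := by
    refine Tendsto.div_const ?_ _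
    simpa using tendsto_finsetProd (range m) fun i _ => tendsto_sub_div hf i
  refine h.congr fun Q => ?_
  rw [prod_div_distrib, prod_const, card_range, div_div, mul_comm ((Q : ℝ) ^ m), ← div_div]
  congr 1
  rw [div_eq_iff (by exact_mod_cast Nat.factorial_ne_zero m), ← Nat.cast_prod,
    ← Nat.descFactorial_eq_prod_range, Nat.descFactorial_eq_factorial_mul_choose]
  push_cast
  ring

/-- Planar limit of the exchange eigenvalue: `(-1/2)^m (1 - 3m)`. -/
theorem tendsto_exch (l : ℕ) :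
    Tendsto (fun Q => exch Q (l + 1)) atTop
      (𝓝 ((-1) ^ (l + 1) * (1 - 3 * ((l : ℝ) + 1)) / 2 ^ (l + 1))) := by
  have hA := tendsto_choose_div (f := fun Q => Q - 1) (a := 1)
    (by simpa using tendsto_linear 1 1) (l + 1)
  have hB := tendsto_choose_div (f := fun Q => Q - 1) (a := 1)
    (by simpa using tendsto_linear 1 1) l
  have hC := tendsto_choose_div (f := fun Q => 2 * Q - 2) (a := 2)
    (by simpa using tendsto_linear 2 2) (l + 1)
  have hL := tendsto_linear 3 (2 + (l + 1))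
  have h := ((hA.sub (hL.mul hB)).const_mul ((-1 : ℝ) ^ (l + 1))).div hC (by positivity)
  have hlim : (-1 : ℝ) ^ (l + 1) * (1 ^ (l + 1) / ((l + 1) ! : ℝ) - (3 : ℕ) * (1 ^ l / (l ! : ℝ)))
      / (2 ^ (l + 1) / ((l + 1) ! : ℝ))
      = (-1) ^ (l + 1) * (1 - 3 * ((l : ℝ) + 1)) / 2 ^ (l + 1) := by
    rw [Nat.factorial_succ]
    push_cast
    field_simp
    ring
  rw [← hlim]
  refine h.congr' ?_
  filter_upwards [eventually_gt_atTop 0] with Q hQ
  have hQ' : (0 : ℝ) < (Q : ℝ) := by exact_mod_cast hQ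
  simp only [exch, Pi.div_apply, Nat.add_sub_cancel,
    show 3 * Q - 2 - (l + 1) = 3 * Q - (2 + (l + 1)) by omega]
  rw [pow_succ (Q : ℝ) l]
  field_simp

/-- Planar limit of the symbol. -/
theorem tendsto_symb (m p : ℕ) :
    Tendsto (fun Q => symb Q m p) atTop
      (𝓝 ((2 / 3 : ℝ) ^ (m + 1) * ((m + p).choose p : ℕ) * (1 / 3) ^ p)) := by
  have h2 := tendsto_linear 2 1
  have h3 := tendsto_linear 3 (1 + 2 * m)
  have hC := tendsto_choose_div (f := fun Q => 2 * Q - 2) (a := 2)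
    (by simpa using tendsto_linear 2 2) m
  have hD := tendsto_choose_div (f := fun Q => 3 * Q - (1 + m)) (a := 3)
    (by simpa using tendsto_linear 3 (1 + m)) m
  have hE := tendsto_choose_div (f := fun Q => Q - m) (a := 1)
    (by simpa using tendsto_linear 1 m) p
  have hG := tendsto_choose_div (f := fun Q => 3 * Q - (2 + 2 * m)) (a := 3)
    (by simpa using tendsto_linear 3 (2 + 2 * m)) p
  have h := (((h2.div h3 (by norm_num)).mul (hC.div hD (by positivity))).mul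
    ((hE.const_mul ((((m + p).choose p : ℕ) : ℝ))).div hG (by positivity)))
  have hlim : ((2 : ℕ) : ℝ) / (3 : ℕ) * (2 ^ m / (m ! : ℝ) / (3 ^ m / (m ! : ℝ)))
      * ((((m + p).choose p : ℕ) : ℝ) * (1 ^ p / (p ! : ℝ)) / (3 ^ p / (p ! : ℝ)))
      = (2 / 3 : ℝ) ^ (m + 1) * ((m + p).choose p : ℕ) * (1 / 3) ^ p := by
    simp only [div_pow, one_pow]
    push_cast
    field_simp
    ring
  rw [← hlim]
  refine h.congr' ?_
  filter_upwards [eventually_gt_atTop 0] with Q hQ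
  have hQ' : (0 : ℝ) < (Q : ℝ) := by exact_mod_cast hQ
  simp only [symb, Pi.div_apply, Nat.sub_sub]
  field_simp

/-- The majorant: a geometric part from orbital `M` on, plus a part for very large orbitals. -/
noncomputable def tailWeight (M : ℕ) (κ : ℝ) (i : ℕ) : ℝ :=
  (if M ≤ i then κ * (7 / 8 : ℝ) ^ i else 0)
    + (if 61 ≤ i then 6 * i * (3 / 4 : ℝ) ^ i else 0)

theorem tailWeight_nonneg (M : ℕ) {κ : ℝ} (hκ : 0 ≤ κ) (i : ℕ) : 0 ≤ tailWeight M κ i := by
  unfold tailWeight; positivity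

theorem nat_mul_pow_le (i : ℕ) : (i : ℝ) * (15 / 16) ^ i ≤ 16 := by
  have h : (1 + (i : ℝ) * (1 / 15)) ≤ (1 + 1 / 15) ^ i :=
    one_add_mul_le_pow (by norm_num) i
  have h' : (15 / 16 : ℝ) ^ i * (1 + 1 / 15) ^ i = 1 := by
    rw [← mul_pow]; norm_num
  have hp : (0 : ℝ) ≤ (15 / 16) ^ i := by positivity
  nlinarith [mul_le_mul_of_nonneg_left h hp]

theorem sum_shift_geometric_le (r : ℝ) (h0 : 0 ≤ r) (h1 : r < 1) (a n : ℕ) :
    ∑ i ∈ range n, (if a ≤ i then r ^ i else 0) ≤ r ^ a / (1 - r) := by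
  rw [← sum_filter]
  have hs : (range n).filter (fun i => a ≤ i) = Ico a n := by
    ext i; simp [and_comm]
  rw [hs]
  exact geom_sum_Ico_le_of_lt_one h0 h1

/-- Total weight: at most `8 κ (7/8)^M + 3/5000`. -/
theorem sum_tailWeight_le (M : ℕ) {κ : ℝ} (hκ : 0 ≤ κ) (n : ℕ) :
    ∑ i ∈ range n, tailWeight M κ i ≤ 8 * κ * (7 / 8) ^ M + 3 / 5000 := by
  have h1 := sum_shift_geometric_le (7 / 8) (by norm_num) (by norm_num) M n
  have h2 := sum_shift_geometric_le (4 / 5) (by norm_num) (by norm_num) 61 n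
  have hle : ∀ i, tailWeight M κ i ≤ κ * (if M ≤ i then (7 / 8 : ℝ) ^ i else 0)
      + 96 * (if 61 ≤ i then (4 / 5 : ℝ) ^ i else 0) := by
    intro i
    unfold tailWeight
    refine add_le_add (le_of_eq ?_) ?_
    · split_ifs <;> simp
    · split_ifs
      · have hk := nat_mul_pow_le i
        have he : (3 / 4 : ℝ) ^ i = (15 / 16) ^ i * (4 / 5) ^ i := by
          rw [← mul_pow]; norm_num
        have hp : (0 : ℝ) ≤ (4 / 5) ^ i := by positivity
        rw [he]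
        nlinarith [mul_le_mul_of_nonneg_right hk hp]
      · simp
  refine (sum_le_sum fun i _ => hle i).trans ?_
  rw [sum_add_distrib, ← mul_sum, ← mul_sum]
  calc κ * _ + 96 * _
      ≤ κ * ((7 / 8 : ℝ) ^ M / (1 - 7 / 8)) + 96 * ((4 / 5 : ℝ) ^ 61 / (1 - 4 / 5)) := by
        gcongr
    _ ≤ _ := by
        refine add_le_add (le_of_eq ?_) (by norm_num)
        ring

theorem planar_margin (M : ℕ) (hM : 2 ≤ M) (κ : ℝ)
    (hbase : (3 * (M : ℝ) - 1) * (17 / 28) ^ M < κ * (16 / 17)) (m : ℕ) (hm : M ≤ m) :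
    (3 * (m : ℝ) - 1) * (17 / 28) ^ m < κ * (16 / 17) := by
  induction m, hm using Nat.le_induction with
  | base => exact hbase
  | succ m hm ih =>
      have hp : (0 : ℝ) < (17 / 28) ^ m := by positivity
      have hm' : (2 : ℝ) ≤ m := by exact_mod_cast hM.trans hm
      rw [pow_succ]
      push_cast
      nlinarith [mul_le_mul_of_nonneg_right hm' hp.le]

/-- The tail pin: for all large `Q`, uniformly in `M ≤ m ≤ Q`.
Instances: `M = 15`, `κ = 1/37` (total `≤ 3/100`), `M = 18`, `κ = 1/135` (total `≤ 3/500`),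
`M = 21`, `κ = 1/500` (total `≤ 1/600`). -/
theorem tail_majorant (M : ℕ) (hM : 3 ≤ M) (κ : ℝ) (hκ : 0 ≤ κ)
    (hbase : (3 * (M : ℝ) - 1) * (17 / 28) ^ M < κ * (16 / 17)) :
    ∀ᶠ Q in atTop, ∀ m, M ≤ m → m ≤ Q →
      exch Q m ≤ ∑ p ∈ range (Q - m + 1), tailWeight M κ (m + p) * symb Q m p := by
  have hnn := tailWeight_nonneg M hκ
  have hsmall : ∀ m ∈ Icc M 60, ∀ᶠ Q in atTop,
      exch Q m ≤ ∑ p ∈ range (Q - m + 1), tailWeight M κ (m + p) * symb Q m p := by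
    intro m hm
    rw [mem_Icc] at hm
    obtain ⟨l, rfl⟩ : ∃ l, m = l + 1 := ⟨m - 1, by omega⟩
    -- the infinite planar sum
    have hsum := (hasSum_choose_mul_geometric_of_norm_lt_one (l + 1)
      (r := (7 / 24 : ℝ)) (by norm_num)).tendsto_sum_nat
    have hgt : (3 * ((l : ℝ) + 1) - 1) / 2 ^ (l + 1) <
        (2 / 3 : ℝ) * (7 / 12) ^ (l + 1) * κ * (1 / (1 - 7 / 24) ^ (l + 1 + 1)) := by
      have h := planar_margin M (by omega) κ hbase (l + 1) hm.1
      push_cast at h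
      have e1 : ((17 / 28 : ℝ)) ^ (l + 1) * ((14 / 17) ^ (l + 1)) = (1 / 2) ^ (l + 1) := by
        rw [← mul_pow]; norm_num
      have e2 : (2 / 3 : ℝ) * (7 / 12) ^ (l + 1) * κ * (1 / (1 - 7 / 24) ^ (l + 1 + 1))
          = κ * (16 / 17) * (14 / 17) ^ (l + 1) := by
        rw [show (1 - 7 / 24 : ℝ) = 17 / 24 by norm_num, pow_succ (17 / 24 : ℝ) (l + 1),
          show (14 / 17 : ℝ) = (7 / 12) / (17 / 24) by norm_num, div_pow (7 / 12 : ℝ)]
        have : ((17 / 24 : ℝ)) ^ (l + 1) ≠ 0 := by positivity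
        field_simp
        ring
      rw [e2, div_eq_mul_inv, ← inv_pow, show ((2 : ℝ)⁻¹) = 1 / 2 by norm_num, ← e1, ← mul_assoc]
      exact mul_lt_mul_of_pos_right h (by positivity)
    obtain ⟨P, hP⟩ := ((hsum.const_mul ((2 / 3 : ℝ) * (7 / 12) ^ (l + 1) * κ)).eventually
      (lt_mem_nhds hgt)).exists
    have hlimS : Tendsto (fun Q => ∑ p ∈ range P,
        κ * (7 / 8 : ℝ) ^ (l + 1 + p) * symb Q (l + 1) p) atTop
        (𝓝 ((2 / 3 : ℝ) * (7 / 12) ^ (l + 1) * κ *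
          ∑ p ∈ range P, ((p + (l + 1)).choose (l + 1) : ℝ) * (7 / 24) ^ p)) := by
      rw [mul_sum]
      refine tendsto_finsetSum _ fun p _ => ?_
      have he : (2 / 3 : ℝ) * (7 / 12) ^ (l + 1) * κ *
            (((p + (l + 1)).choose (l + 1) : ℕ) * (7 / 24) ^ p)
          = κ * (7 / 8) ^ (l + 1 + p) *
            ((2 / 3 : ℝ) ^ (l + 1 + 1) * ((l + 1 + p).choose p : ℕ) * (1 / 3) ^ p) := by
        rw [add_comm p (l + 1), Nat.choose_symm_add, show (7 / 12 : ℝ) = (7 / 8) * (2 / 3) by norm_num,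
          show (7 / 24 : ℝ) = (7 / 8) * (1 / 3) by norm_num, mul_pow, mul_pow,
          pow_add (7 / 8 : ℝ) (l + 1) p, pow_succ (2 / 3 : ℝ) (l + 1)]
        ring
      rw [he]
      exact (tendsto_symb (l + 1) p).const_mul _
    have hK : (-1 : ℝ) ^ (l + 1) * (1 - 3 * ((l : ℝ) + 1)) / 2 ^ (l + 1)
        ≤ (3 * ((l : ℝ) + 1) - 1) / 2 ^ (l + 1) := by
      gcongr
      have hl : (0 : ℝ) ≤ (l : ℝ) := Nat.cast_nonneg l
      rcases neg_one_pow_eq_or ℝ (l + 1) with h | h <;> rw [h] <;> linarith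
    filter_upwards [(tendsto_exch l).eventually_lt hlimS (hK.trans_lt hP),
      eventually_ge_atTop (l + 1 + P)] with Q hlt hQ
    refine hlt.le.trans ?_
    refine le_trans (sum_le_sum fun p _ => ?_) (sum_le_sum_of_subset_of_nonneg
      (range_mono (by omega)) fun p _ _ => mul_nonneg (hnn _) (symb_nonneg _ _ _))
    refine mul_le_mul_of_nonneg_right ?_ (symb_nonneg _ _ _)
    rw [tailWeight, if_pos (by omega : M ≤ l + 1 + p)]
    exact le_add_of_nonneg_right (by positivity)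
  filter_upwards [(eventually_all_finset _).2 hsmall, eventually_ge_atTop 2] with Q hQ hQ2 m hMm hmQ
  by_cases hm : m ≤ 60
  · exact hQ m (mem_Icc.2 ⟨hMm, hm⟩)
  refine le_trans ((le_abs_self _).trans (abs_exch_le Q m (by omega) hQ2 hmQ)) ?_
  refine le_trans ?_ (single_le_sum (f := fun p => tailWeight M κ (m + p) * symb Q m p)
    (fun p _ => mul_nonneg (hnn _) (symb_nonneg _ _ _)) (mem_range.2 (Nat.succ_pos _)))
  have he := symb_zero_ge Q m (by omega) hmQ
  have hw : 6 * (m : ℝ) * (3 / 4) ^ m ≤ tailWeight M κ (m + 0) := by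
    rw [add_zero, tailWeight, if_pos (by omega : 61 ≤ m)]
    exact le_add_of_nonneg_left (by positivity)
  calc 4 * (m : ℝ) / 2 ^ m = 6 * m * (3 / 4) ^ m * (2 / 3) ^ (m + 1) := by
        rw [pow_succ (2 / 3 : ℝ), mul_assoc (6 * (m : ℝ)), ← mul_assoc ((3 / 4 : ℝ) ^ m),
          ← mul_pow, show (3 / 4 * (2 / 3) : ℝ) = (2 : ℝ)⁻¹ by norm_num, inv_pow, div_eq_mul_inv]
        ring
    _ ≤ _ := mul_le_mul hw he (by positivity) (hnn _)

/-- The instance used by the certificate with window channels `m ≤ 14`. -/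
theorem tail_majorant_fifteen : ∀ᶠ Q in atTop, ∀ m, 15 ≤ m → m ≤ Q →
    exch Q m ≤ ∑ p ∈ range (Q - m + 1), tailWeight 15 (1 / 37) (m + p) * symb Q m p :=
  tail_majorant 15 (by norm_num) _ (by norm_num) (by norm_num)

theorem sum_tailWeight_fifteen (n : ℕ) : ∑ i ∈ range n, tailWeight 15 (1 / 37) i ≤ 3 / 100 :=
  (sum_tailWeight_le 15 (by norm_num) n).trans (by norm_num)

end Vale.Agent.P359.Sphere
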