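import Vale.Agent.P359.Upper.Defs
import Vale.Agent.P359.Sphere.Tail

/-!
# P359: raw-coefficient identities for the pair + particle channels

`hw Q m i` is the coefficient at (pair orbital sum `i + 1`, particle orbital `m - i`) of the extremal
vector of the channel of total spin `(Q-1) + Q/2 - m`, in normalised orbitals.
-/

open Finset

namespace Vale.Agent.P359.Sphere

open Upper

/-- Chu-Vandermonde with upper negation. -/
theorem sum_choose_add_mul (a b m : ℕ) :
    ∑ p ∈ antidiagonal m, (a + p.1).choose p.1 * (b + p.2).choose p.2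
      = (a + b + 1 + m).choose m := by
  induction b generalizing m with
  | zero =>
      induction m with
      | zero => simp
      | succ m ih =>
          rw [Nat.antidiagonal_succ', sum_cons, sum_map]
          simp only [Nat.choose_self, mul_one, Function.Embedding.coe_prodMap, Prod.map_fst,
            Prod.map_snd, Function.Embedding.refl_apply, Function.Embedding.coeFn_mk] at ih ⊢
          simp only [zero_add, Nat.choose_self, mul_one, add_zero] at ih ⊢
          rw [ih, show a + 1 + (m + 1) = (a + 1 + m) + 1 by omega, Nat.choose_succ_succ',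
            show a + (m + 1) = a + 1 + m by omega]
          ring
  | succ b ihb =>
      induction m with
      | zero => simp
      | succ m ihm =>
          have h := ihb (m + 1)
          rw [Nat.antidiagonal_succ', sum_cons, sum_map] at h ⊢
          simp only [Function.Embedding.coe_prodMap, Prod.map_fst,
            Prod.map_snd, Function.Embedding.refl_apply, Function.Embedding.coeFn_mk, Nat.succ_eq_add_one] at h ⊢
          have hsplit : ∀ p : ℕ × ℕ, (b + 1 + (p.2 + 1)).choose (p.2 + 1)
              = (b + (p.2 + 1)).choose (p.2 + 1) + (b + 1 + p.2).choose p.2 := by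
            intro p
            rw [show b + 1 + (p.2 + 1) = (b + 1 + p.2) + 1 by omega, Nat.choose_succ_succ',
              show b + (p.2 + 1) = b + 1 + p.2 by omega]
            ring
          simp only [hsplit, mul_add, sum_add_distrib, ihm]
          simp only [add_zero, Nat.choose_zero_right, mul_one] at h ⊢
          rw [show a + (b + 1) + 1 + (m + 1) = (a + (b + 1) + 1 + m) + 1 by omega,
            Nat.choose_succ_succ', show a + (b + 1) + 1 + m = a + b + 1 + (m + 1) by omega] at *
          omega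

/-- The pair-norm sum in natural numbers. -/
theorem sum_choose_sq (Q i : ℕ) (hQ : 1 ≤ Q) :
    ∑ p ∈ antidiagonal (i + 1), (Q.choose p.1 : ℝ) * Q.choose p.2 * ((p.2 : ℝ) - p.1) ^ 2
      = 2 * Q * ((2 * Q - 2).choose i : ℕ) := by
  obtain ⟨q, rfl⟩ : ∃ q, Q = q + 1 := ⟨Q - 1, by omega⟩
  have hexp : ∀ p ∈ antidiagonal (i + 1),
      ((q + 1).choose p.1 : ℝ) * (q + 1).choose p.2 * ((p.2 : ℝ) - p.1) ^ 2
        = ((i : ℝ) + 1) ^ 2 * (((q + 1).choose p.1 * (q + 1).choose p.2 : ℕ) : ℝ)
          - 4 * ((p.1 * p.2 * ((q + 1).choose p.1 * (q + 1).choose p.2) : ℕ) : ℝ) := by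
    intro p hp
    rw [HasAntidiagonal.mem_antidiagonal] at hp
    have : (p.1 : ℝ) + p.2 = (i : ℝ) + 1 := by exact_mod_cast hp
    rw [← this]
    push_cast
    ring
  rw [sum_congr rfl hexp, sum_sub_distrib, ← mul_sum, ← mul_sum, ← Nat.cast_sum, ← Nat.cast_sum,
    ← Nat.add_choose_eq, show 2 * (q + 1) - 2 = 2 * q by omega,
    show q + 1 + (q + 1) = 2 * q + 1 + 1 by omega]
  have e1 : ((2 * q + 1 + 1 : ℕ) : ℝ) * ((2 * q + 1).choose i : ℕ)
      = ((2 * q + 1 + 1).choose (i + 1) : ℕ) * ((i : ℝ) + 1) := by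
    exact_mod_cast Nat.add_one_mul_choose_eq (2 * q + 1) i
  cases i with
  | zero =>
      simp [Nat.antidiagonal_succ] at e1 ⊢
      ring
  | succ l =>
      have hA : ∑ p ∈ antidiagonal (l + 1 + 1), p.1 * p.2 * ((q + 1).choose p.1 * (q + 1).choose p.2)
          = (q + 1) ^ 2 * (2 * q).choose l := by
        rw [Nat.antidiagonal_succ, sum_cons, Nat.antidiagonal_succ', map_cons, sum_cons, sum_map,
          sum_map, show 2 * q = q + q by omega, Nat.add_choose_eq q q l, mul_sum]
        simp only [Function.Embedding.coe_prodMap, Prod.map_fst, Prod.map_snd,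
          Function.Embedding.refl_apply, Function.Embedding.coeFn_mk, zero_mul, mul_zero, zero_add,
          Nat.succ_eq_add_one]
        refine sum_congr rfl fun p _ => ?_
        rw [show (p.1 + 1) * (p.2 + 1) * ((q + 1).choose (p.1 + 1) * (q + 1).choose (p.2 + 1))
          = ((q + 1).choose (p.1 + 1) * (p.1 + 1)) * ((q + 1).choose (p.2 + 1) * (p.2 + 1)) by ring,
          ← Nat.add_one_mul_choose_eq, ← Nat.add_one_mul_choose_eq]
        ring
      rw [hA]
      have e2 : ((2 * q + 1).choose (l + 1) : ℕ)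
          = (2 * q).choose l + (2 * q).choose (l + 1) := Nat.choose_succ_succ' _ _
      have hn : (2 * q).choose (l + 1) * (l + 1) + (2 * q).choose l * l
          = (2 * q).choose l * (2 * q) := by
        rcases le_or_gt l (2 * q) with h | h
        · rw [Nat.choose_succ_right_eq, ← mul_add, Nat.sub_add_cancel h]
        · simp [Nat.choose_eq_zero_of_lt h, Nat.choose_eq_zero_of_lt (show 2 * q < l + 1 by omega)]
      have e3 : (((2 * q).choose (l + 1) : ℕ) : ℝ) * ((l : ℝ) + 1)
          + (((2 * q).choose l : ℕ) : ℝ) * l = (((2 * q).choose l : ℕ) : ℝ) * (2 * q) := by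
        exact_mod_cast hn
      push_cast [e2] at e1 ⊢
      linear_combination (-((l : ℝ) + 1 + 1)) * e1 + (2 * (q : ℝ) + 2) * e3

/-- The norm of the pair vector of orbital sum `i + 1`. -/
theorem pairNorm_succ (Q i : ℕ) (hQ : 1 ≤ Q) :
    pairNorm Q (i + 1) = 2 * Q * ((2 * Q - 2).choose i : ℕ) := by
  rw [← sum_choose_sq Q i hQ, pairNorm, ← Fintype.sum_prod_type']
  rw [← sum_filter_of_ne (p := fun p : Fin (Q + 1) × Fin (Q + 1) => (p.1 : ℕ) + p.2 = i + 1)
    (fun p _ hp => by
      by_contra hne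
      exact hp (by simp [pairVec, hne]))]
  symm
  rw [← sum_filter_of_ne (s := antidiagonal (i + 1))
    (p := fun p : ℕ × ℕ => p.1 ≤ Q ∧ p.2 ≤ Q) (fun p _ hp => by
      by_contra hne
      apply hp
      rcases not_and_or.1 hne with h | h <;>
        simp [Nat.choose_eq_zero_of_lt (not_le.1 h)])]
  refine sum_bij' (fun p hp => ((⟨p.1, ?_⟩ : Fin (Q + 1)), (⟨p.2, ?_⟩ : Fin (Q + 1))))
    (fun p _ => ((p.1 : ℕ), (p.2 : ℕ))) ?_ ?_ ?_ ?_ ?_
  · have := (mem_filter.1 hp).2.1; omega
  · have := (mem_filter.1 hp).2.2; omega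
  · intro p hp
    simp only [mem_filter, mem_univ, true_and]
    exact HasAntidiagonal.mem_antidiagonal.1 (mem_filter.1 hp).1
  · intro p hp
    simp only [mem_filter, mem_univ, true_and, HasAntidiagonal.mem_antidiagonal] at hp ⊢
    exact ⟨hp, Nat.lt_succ_iff.1 p.1.2, Nat.lt_succ_iff.1 p.2.2⟩
  · intro p hp; rfl
  · intro p hp; rfl
  · intro p hp
    have h := HasAntidiagonal.mem_antidiagonal.1 (mem_filter.1 hp).1
    rw [pairVec, if_pos h, mul_pow, Real.sq_sqrt (by positivity)]

/-- The extremal channel vector. -/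
noncomputable def hw (Q m i : ℕ) : ℝ :=
  (-1) ^ i * (m.choose i : ℕ) / √(((2 * Q - 2).choose i : ℕ) * (Q.choose (m - i) : ℕ))

/-- Its squared norm. -/
theorem hw_normSq (Q m : ℕ) (hQ : 2 ≤ Q) (hm : m ≤ Q) :
    ∑ i ∈ range (m + 1), hw Q m i ^ 2 = ((3 * Q - 1 - m).choose m : ℕ)
      / (((2 * Q - 2).choose m : ℕ) * (Q.choose m : ℕ)) := by
  have hterm : ∀ i ∈ range (m + 1), hw Q m i ^ 2
      = (((Q - m + i).choose i * (2 * Q - 2 - m + (m - i)).choose (m - i) : ℕ) : ℝ)
        / (((2 * Q - 2).choose m : ℕ) * (Q.choose m : ℕ)) := by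
    intro i hi
    rw [mem_range] at hi
    have n1 : (2 * Q - 2).choose m * m.choose i
        = (2 * Q - 2).choose i * (2 * Q - 2 - m + (m - i)).choose (m - i) := by
      rw [Nat.choose_mul (by omega : i ≤ m), show 2 * Q - 2 - m + (m - i) = 2 * Q - 2 - i by omega]
    have n2 : Q.choose m * m.choose i = Q.choose (m - i) * (Q - m + i).choose i := by
      rw [← Nat.choose_symm (by omega : i ≤ m), Nat.choose_mul (by omega : m - i ≤ m),
        show Q - m + i = Q - (m - i) by omega, show m - (m - i) = i by omega]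
    have r1 := congrArg (Nat.cast : ℕ → ℝ) n1
    have r2 := congrArg (Nat.cast : ℕ → ℝ) n2
    have hA : (0 : ℝ) < ((2 * Q - 2).choose i : ℕ) := by exact_mod_cast Nat.choose_pos (by omega)
    have hB : (0 : ℝ) < (Q.choose (m - i) : ℕ) := by exact_mod_cast Nat.choose_pos (by omega)
    have hC : (0 : ℝ) < ((2 * Q - 2).choose m : ℕ) := by exact_mod_cast Nat.choose_pos (by omega)
    have hD : (0 : ℝ) < (Q.choose m : ℕ) := by exact_mod_cast Nat.choose_pos (by omega)
    push_cast at r1 r2 ⊢
    rw [hw, div_pow, mul_pow, ← pow_mul, pow_mul', neg_one_sq, one_pow, one_mul,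
      Real.sq_sqrt (by positivity), div_eq_div_iff (by positivity) (by positivity)]
    linear_combination ((Q.choose m : ℝ) * (m.choose i : ℝ)) * r1
      + (((2 * Q - 2).choose i : ℝ) * ((2 * Q - 2 - m + (m - i)).choose (m - i) : ℝ)) * r2
  rw [sum_congr rfl hterm, ← sum_div, ← Nat.cast_sum]
  congr 2
  rw [← Nat.sum_antidiagonal_eq_sum_range_succ
    (fun i j => (Q - m + i).choose i * (2 * Q - 2 - m + j).choose j), sum_choose_add_mul]
  congr 1
  omega

/-- The weight of the pole component, times `S_+^p` descent, against the norms: the symbol. -/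
theorem symb_eq (Q m p : ℕ) (hQ : 2 ≤ Q) (hm : m ≤ Q) :
    symb Q m p = ((2 * Q - 1 : ℕ) : ℝ) / ((3 * Q - 1 - 2 * m : ℕ) : ℝ)
      * (hw Q m 0 ^ 2 / ∑ i ∈ range (m + 1), hw Q m i ^ 2)
      * (((m + p).choose p : ℕ) * ((Q - m).choose p : ℕ) / ((3 * Q - 2 - 2 * m).choose p : ℕ)) := by
  rw [hw_normSq Q m hQ hm, symb, hw]
  have hD : (0 : ℝ) < (Q.choose m : ℕ) := by exact_mod_cast Nat.choose_pos (by omega)
  simp only [pow_zero, Nat.choose_zero_right, Nat.cast_one, mul_one, one_mul, Nat.sub_zero]
  rw [div_pow, one_pow, Real.sq_sqrt hD.le]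
  field_simp

end Vale.Agent.P359.Sphere
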