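import Vale.Agent.P359.Sphere.Channel

/-!
# P359: diagonalisation of the exchange operator on pair + particle

Raw polynomial coordinates `f i a`: coefficient of `t^i z^a`, pair spin `Q-1` (degree `2Q-2` in `t`),
particle degree `Q` in `z`. The multiplets of `extremal Q m` are orthogonal, complete, and the exchange
operator has the eigenvalue `exch Q m` on them.
-/

open Finset

namespace Vale.Agent.P359.Sphere

/-- The monomial weight of the pair. -/
noncomputable def cP (Q i : ℕ) : ℝ := ((2 * Q - 2).choose i : ℕ)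

/-- The monomial weight of the particle. -/
noncomputable def cS (Q a : ℕ) : ℝ := (Q.choose a : ℕ)

/-- Coefficients of polynomials of the two degrees. -/
def InBox (Q : ℕ) (f : ℕ → ℕ → ℝ) : Prop := ∀ i a, 2 * Q - 2 < i ∨ Q < a → f i a = 0

/-- Homogeneous of orbital sum `t`. -/
def HasSum' (t : ℕ) (f : ℕ → ℕ → ℝ) : Prop := ∀ i a, i + a ≠ t → f i a = 0

/-- The invariant inner product. -/
noncomputable def ip (Q : ℕ) (f g : ℕ → ℕ → ℝ) : ℝ :=
  ∑ i ∈ range (2 * Q - 2 + 1), ∑ a ∈ range (Q + 1), f i a * g i a / (cP Q i * cS Q a)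

/-- `∂_t + ∂_z`. -/
def lower (f : ℕ → ℕ → ℝ) (i a : ℕ) : ℝ :=
  ((i : ℝ) + 1) * f (i + 1) a + ((a : ℝ) + 1) * f i (a + 1)

/-- Its adjoint. -/
def lift (Q : ℕ) (f : ℕ → ℕ → ℝ) (i a : ℕ) : ℝ :=
  (if i = 0 then 0 else ((2 * Q - 2 - (i - 1) : ℕ) : ℝ) * f (i - 1) a)
    + (if a = 0 then 0 else ((Q - (a - 1) : ℕ) : ℝ) * f i (a - 1))

/-- The exchange operator: `pairVec` of the new pair against `pairVec` of the old one. -/
noncomputable def exchOp (Q : ℕ) (f : ℕ → ℕ → ℝ) (i a : ℕ) : ℝ :=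
  cS Q a / Q * ∑ p ∈ antidiagonal (i + 1),
    ((p.2 : ℝ) - p.1) * ((p.2 : ℝ) - a) * cS Q p.2 * (f (a + p.2 - 1) p.1 / cP Q (a + p.2 - 1))

/-- The extremal vector of channel `m`. -/
noncomputable def extremal (m i a : ℕ) : ℝ :=
  if i + a = m then (-1) ^ i * (m.choose i : ℕ) else 0

theorem cP_pos {Q i : ℕ} (h : i ≤ 2 * Q - 2) : 0 < cP Q i := by
  unfold cP; exact_mod_cast Nat.choose_pos h

theorem cS_pos {Q a : ℕ} (h : a ≤ Q) : 0 < cS Q a := by
  unfold cS; exact_mod_cast Nat.choose_pos h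

theorem cS_step (Q a : ℕ) : ((a : ℝ) + 1) * cS Q (a + 1) = ((Q - a : ℕ) : ℝ) * cS Q a := by
  have h := congrArg (Nat.cast : ℕ → ℝ) (Nat.choose_succ_right_eq Q a)
  simp only [cS]
  push_cast at h
  linarith

theorem cS_step' (Q a : ℕ) : ((a : ℝ) + 1) * cS Q (a + 1) = ((Q : ℝ) - a) * cS Q a := by
  rcases le_or_gt a Q with h | h
  · rw [cS_step, Nat.cast_sub h]
  · simp [cS, Nat.choose_eq_zero_of_lt h, Nat.choose_eq_zero_of_lt (h.trans (Nat.lt_succ_self a))]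

theorem cP_step (Q i : ℕ) : ((i : ℝ) + 1) * cP Q (i + 1) = ((2 * Q - 2 - i : ℕ) : ℝ) * cP Q i := by
  have h := congrArg (Nat.cast : ℕ → ℝ) (Nat.choose_succ_right_eq (2 * Q - 2) i)
  simp only [cP]
  push_cast at h
  linarith

theorem cP_zero {Q : ℕ} : cP Q 0 = 1 := by simp [cP]

theorem cS_zero {Q : ℕ} : cS Q 0 = 1 := by simp [cS]

theorem inBox_lift {Q : ℕ} {f : ℕ → ℕ → ℝ} (hf : InBox Q f) : InBox Q (lift Q f) := by
  intro i a h
  have h1 : i = 0 ∨ ((2 * Q - 2 - (i - 1) : ℕ) : ℝ) * f (i - 1) a = 0 := by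
    rcases h with h | h
    · right; simp [show 2 * Q - 2 - (i - 1) = 0 by omega]
    · right; simp [hf (i - 1) a (Or.inr h)]
  have h2 : a = 0 ∨ ((Q - (a - 1) : ℕ) : ℝ) * f i (a - 1) = 0 := by
    rcases h with h | h
    · right; simp [hf i (a - 1) (Or.inl h)]
    · right; simp [show Q - (a - 1) = 0 by omega]
  have h1' : (if i = 0 then 0 else ((2 * Q - 2 - (i - 1) : ℕ) : ℝ) * f (i - 1) a) = 0 := by
    split_ifs with h0
    · rfl
    · exact h1.resolve_left h0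
  have h2' : (if a = 0 then 0 else ((Q - (a - 1) : ℕ) : ℝ) * f i (a - 1)) = 0 := by
    split_ifs with h0
    · rfl
    · exact h2.resolve_left h0
  rw [lift, h1', h2', add_zero]

theorem inBox_lower {Q : ℕ} {f : ℕ → ℕ → ℝ} (hf : InBox Q f) : InBox Q (lower f) := by
  intro i a h
  rcases h with h | h
  · simp [lower, hf (i + 1) a (Or.inl (by omega)), hf i (a + 1) (Or.inl h)]
  · simp [lower, hf (i + 1) a (Or.inr h), hf i (a + 1) (Or.inr (by omega))]

theorem hasSum'_lift {Q t : ℕ} {f : ℕ → ℕ → ℝ} (hf : HasSum' t f) : HasSum' (t + 1) (lift Q f) := by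
  intro i a h
  unfold lift
  split_ifs with h1 h2 h2
  · simp
  · simp [hf i (a - 1) (by omega)]
  · simp [hf (i - 1) a (by omega)]
  · simp [hf (i - 1) a (by omega), hf i (a - 1) (by omega)]

theorem hasSum'_lower {t : ℕ} {f : ℕ → ℕ → ℝ} (hf : HasSum' (t + 1) f) : HasSum' t (lower f) := by
  intro i a h
  simp [lower, hf (i + 1) a (by omega), hf i (a + 1) (by omega)]

theorem inBox_exchOp {Q : ℕ} {f : ℕ → ℕ → ℝ} (hf : InBox Q f) : InBox Q (exchOp Q f) := by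
  intro i a h
  rcases h with h | h
  · rw [exchOp, sum_eq_zero, mul_zero]
    intro p hp
    rw [HasAntidiagonal.mem_antidiagonal] at hp
    rcases lt_or_ge Q p.1 with h1 | h1
    · simp [hf _ p.1 (Or.inr h1)]
    rcases lt_or_ge Q p.2 with h2 | h2
    · simp [cS, Nat.choose_eq_zero_of_lt h2]
    · simp [show p.2 = p.1 by omega]
  · simp [exchOp, cS, Nat.choose_eq_zero_of_lt h]

theorem hasSum'_exchOp {Q t : ℕ} {f : ℕ → ℕ → ℝ} (hf : HasSum' t f) :
    HasSum' t (exchOp Q f) := by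
  intro i a h
  rw [exchOp, sum_eq_zero, mul_zero]
  intro p hp
  rw [HasAntidiagonal.mem_antidiagonal] at hp
  rcases Nat.eq_zero_or_pos (a + p.2) with h0 | h0
  · simp [show a = 0 by omega, show p.2 = 0 by omega]
  · simp [hf (a + p.2 - 1) p.1 (by omega)]

/-- The exchange operator commutes with `∂_t + ∂_z`. -/
theorem lower_exchOp {Q : ℕ} {f : ℕ → ℕ → ℝ} (hf : InBox Q f) (i a : ℕ) :
    lower (exchOp Q f) i a = exchOp Q (lower f) i a := by
  set F : ℕ → ℕ → ℝ := fun j b => f j b / cP Q j with hF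
  set G1 : ℕ × ℕ → ℝ := fun p =>
    ((p.2 : ℝ) - p.1) * ((p.2 : ℝ) - a) * cS Q p.2 * F (a + p.2 - 1) p.1 with hG1
  set G2 : ℕ × ℕ → ℝ := fun p =>
    (p.1 : ℝ) * ((p.2 : ℝ) - p.1 + 1) * ((p.2 : ℝ) - a) * cS Q p.2 * F (a + p.2 - 1) p.1 with hG2
  have hstep : ∀ p : ℕ × ℕ, ((p.2 : ℝ) - p.1) * ((p.2 : ℝ) - a) * cS Q p.2
      * (lower f (a + p.2 - 1) p.1 / cP Q (a + p.2 - 1))
      = ((p.2 : ℝ) - p.1) * ((p.2 : ℝ) - a) * cS Q p.2 * (2 * (Q : ℝ) - 1 - a - p.2)
          * F (a + p.2) p.1 + G2 (p.1 + 1, p.2) := by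
    intro p
    have e2 : G2 (p.1 + 1, p.2) = ((p.2 : ℝ) - p.1) * ((p.2 : ℝ) - a) * cS Q p.2
        * (((p.1 : ℝ) + 1) * F (a + p.2 - 1) (p.1 + 1)) := by
      simp only [hG2]; push_cast; ring
    rcases Nat.eq_zero_or_pos (a + p.2) with h0 | h0
    · rw [e2]; simp [show a = 0 by omega, show p.2 = 0 by omega]
    · obtain ⟨j, hj⟩ : ∃ j, a + p.2 = j + 1 := ⟨a + p.2 - 1, by omega⟩
      have hjR : (a : ℝ) + p.2 = j + 1 := by exact_mod_cast hj
      rcases lt_or_ge Q p.2 with h2 | h2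
      · simp [e2, cS, Nat.choose_eq_zero_of_lt h2]
      rw [e2, hj, Nat.add_sub_cancel, lower]
      rcases le_or_gt (j + 1) (2 * Q - 2) with hN | hN
      · have hs := cP_step Q j
        rw [Nat.cast_sub (by omega : j ≤ 2 * Q - 2), Nat.cast_sub (by omega : 2 ≤ 2 * Q)] at hs
        push_cast at hs
        have n1 := (cP_pos (by omega : j ≤ 2 * Q - 2)).ne'
        have n2 := (cP_pos hN).ne'
        have key : ((j : ℝ) + 1) / cP Q j = (2 * (Q : ℝ) - 1 - a - p.2) / cP Q (j + 1) := by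
          rw [div_eq_div_iff n1 n2, hs]
          linear_combination (cP Q j) * hjR
        simp only [hF]
        linear_combination (((p.2 : ℝ) - p.1) * ((p.2 : ℝ) - a) * cS Q p.2 * f (j + 1) p.1) * key
      · simp only [hF, hf (j + 1) p.1 (Or.inl hN)]
        ring
  have hL1 : ∑ p ∈ antidiagonal (i + 1 + 1), G1 p
      = G1 (i + 1 + 1, 0) + ∑ p ∈ antidiagonal (i + 1), G1 (p.1, p.2 + 1) := by
    rw [Nat.antidiagonal_succ', sum_cons, sum_map]; rfl
  have hR2 : ∑ p ∈ antidiagonal (i + 1), G2 (p.1 + 1, p.2)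
      = G2 (i + 1 + 1, 0) + ∑ p ∈ antidiagonal (i + 1), G2 (p.1, p.2 + 1) := by
    have h1 : ∑ p ∈ antidiagonal (i + 1 + 1), G2 p
        = ∑ p ∈ antidiagonal (i + 1), G2 (p.1 + 1, p.2) := by
      rw [Nat.antidiagonal_succ, sum_cons, sum_map]
      simp only [hG2, Nat.cast_zero, zero_mul, zero_add]; rfl
    rw [← h1, Nat.antidiagonal_succ', sum_cons, sum_map]; rfl
  have hmain : ((i : ℝ) + 1) * ∑ p ∈ antidiagonal (i + 1 + 1), G1 p
      + ((Q : ℝ) - a) * ∑ p ∈ antidiagonal (i + 1),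
          ((p.2 : ℝ) - p.1) * ((p.2 : ℝ) - (a + 1)) * cS Q p.2 * F (a + p.2) p.1
      = ∑ p ∈ antidiagonal (i + 1),
          ((p.2 : ℝ) - p.1) * ((p.2 : ℝ) - a) * cS Q p.2 * (2 * (Q : ℝ) - 1 - a - p.2)
            * F (a + p.2) p.1
        + ∑ p ∈ antidiagonal (i + 1), G2 (p.1 + 1, p.2) := by
    rw [hL1, hR2]
    have hz : ((i : ℝ) + 1) * G1 (i + 1 + 1, 0) = G2 (i + 1 + 1, 0) := by
      simp only [hG1, hG2]; push_cast; ring
    have hpt : ∑ p ∈ antidiagonal (i + 1), (((i : ℝ) + 1) * G1 (p.1, p.2 + 1)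
        + ((Q : ℝ) - a) * (((p.2 : ℝ) - p.1) * ((p.2 : ℝ) - (a + 1)) * cS Q p.2 * F (a + p.2) p.1))
        = ∑ p ∈ antidiagonal (i + 1), (((p.2 : ℝ) - p.1) * ((p.2 : ℝ) - a) * cS Q p.2
            * (2 * (Q : ℝ) - 1 - a - p.2) * F (a + p.2) p.1 + G2 (p.1, p.2 + 1)) := by
      refine sum_congr rfl fun p hp => ?_
      rw [HasAntidiagonal.mem_antidiagonal] at hp
      have hpR : (p.1 : ℝ) + p.2 = (i : ℝ) + 1 := by exact_mod_cast hp
      have hc := cS_step' Q p.2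
      simp only [hG1, hG2, show a + (p.2 + 1) - 1 = a + p.2 by omega]
      push_cast
      rw [← hpR]
      linear_combination (((p.2 : ℝ) + 1 - a) * ((p.2 : ℝ) - p.1) * F (a + p.2) p.1) * hc
    simp only [sum_add_distrib, ← mul_sum] at hpt
    linarith
  rw [lower, exchOp, exchOp, exchOp, sum_congr rfl fun p _ => hstep p, sum_add_distrib, ← hmain]
  have h1 : ∀ p : ℕ × ℕ, ((p.2 : ℝ) - p.1) * ((p.2 : ℝ) - a) * cS Q p.2
      * (f (a + p.2 - 1) p.1 / cP Q (a + p.2 - 1)) = G1 p := fun p => rfl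
  simp only [h1, show ∀ p : ℕ × ℕ, a + 1 + p.2 - 1 = a + p.2 from fun p => by omega, hF]
  push_cast
  linear_combination ((∑ p ∈ antidiagonal (i + 1), ((p.2 : ℝ) - p.1) * ((p.2 : ℝ) - (a + 1))
    * cS Q p.2 * (f (a + p.2) p.1 / cP Q (a + p.2))) / Q) * cS_step' Q a

theorem ip_comm (Q : ℕ) (f g : ℕ → ℕ → ℝ) : ip Q f g = ip Q g f := by
  simp only [ip, mul_comm]

/-- `lift` is the adjoint of `lower`. -/
theorem ip_lift (Q : ℕ) {f g : ℕ → ℕ → ℝ} (hg : InBox Q g) :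
    ip Q (lift Q f) g = ip Q f (lower g) := by
  have hl : ∀ i a, lift Q f i a * g i a / (cP Q i * cS Q a)
      = (if i = 0 then 0 else ((2 * Q - 2 - (i - 1) : ℕ) : ℝ) * f (i - 1) a) * g i a / (cP Q i * cS Q a)
        + (if a = 0 then 0 else ((Q - (a - 1) : ℕ) : ℝ) * f i (a - 1)) * g i a / (cP Q i * cS Q a) :=
    fun i a => by rw [lift]; ring
  have hw' : ∀ i a, f i a * lower g i a / (cP Q i * cS Q a)
      = f i a * (((i : ℝ) + 1) * g (i + 1) a) / (cP Q i * cS Q a)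
        + f i a * (((a : ℝ) + 1) * g i (a + 1)) / (cP Q i * cS Q a) :=
    fun i a => by rw [lower]; ring
  simp only [ip, hl, hw', sum_add_distrib]
  congr 1
  · rw [sum_range_succ' _ (2 * Q - 2), sum_range_succ _ (2 * Q - 2)]
    congr 1
    · refine sum_congr rfl fun i hi => sum_congr rfl fun a ha => ?_
      rw [mem_range] at hi ha
      rw [if_neg (Nat.succ_ne_zero i), Nat.add_sub_cancel]
      have n1 := (cP_pos (by omega : i ≤ 2 * Q - 2)).ne'
      have n2 := (cP_pos (by omega : i + 1 ≤ 2 * Q - 2)).ne'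
      have n3 := (cS_pos (by omega : a ≤ Q)).ne'
      field_simp
      linear_combination (-(f i a * g (i + 1) a)) * cP_step Q i
    · simp [hg (2 * Q - 2 + 1) _ (Or.inl (Nat.lt_succ_self _))]
  · refine sum_congr rfl fun i hi => ?_
    rw [sum_range_succ' _ Q, sum_range_succ _ Q]
    congr 1
    · refine sum_congr rfl fun a ha => ?_
      rw [mem_range] at hi ha
      rw [if_neg (Nat.succ_ne_zero a), Nat.add_sub_cancel]
      have n1 := (cP_pos (by omega : i ≤ 2 * Q - 2)).ne'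
      have n2 := (cS_pos (by omega : a + 1 ≤ Q)).ne'
      have n3 := (cS_pos (by omega : a ≤ Q)).ne'
      field_simp
      linear_combination (-(f i a * g i (a + 1))) * cS_step Q a
    · simp [hg i (Q + 1) (Or.inr (Nat.lt_succ_self _))]

/-- The commutator of `lower` and `lift` on orbital sum `t`. -/
theorem lower_lift {Q t : ℕ} (hQ : 1 ≤ Q) {f : ℕ → ℕ → ℝ} (hb : InBox Q f) (ht : HasSum' t f)
    (i a : ℕ) :
    lower (lift Q f) i a = lift Q (lower f) i a + (3 * (Q : ℝ) - 2 - 2 * t) * f i a := by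
  by_cases hin : i ≤ 2 * Q - 2 ∧ a ≤ Q
  · obtain ⟨hi, ha⟩ := hin
    have hval : (3 * (Q : ℝ) - 2 - 2 * t) * f i a = (3 * (Q : ℝ) - 2 - 2 * i - 2 * a) * f i a := by
      by_cases he : i + a = t
      · rw [← he]; push_cast; ring
      · simp [ht i a he]
    rw [hval]
    have cI : ((2 * Q - 2 - i : ℕ) : ℝ) = 2 * (Q : ℝ) - 2 - i := by
      rw [Nat.cast_sub hi, Nat.cast_sub (by omega : 2 ≤ 2 * Q)]; push_cast; ring
    have cA : ((Q - a : ℕ) : ℝ) = (Q : ℝ) - a := Nat.cast_sub ha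
    simp only [lower, lift, Nat.succ_ne_zero, if_false, Nat.add_sub_cancel, cI, cA]
    rcases i with _ | i' <;> rcases a with _ | a' <;>
      simp only [Nat.succ_ne_zero, if_false, if_true, Nat.add_sub_cancel, Nat.cast_zero]
    · ring
    · have : ((Q - a' : ℕ) : ℝ) = (Q : ℝ) - a' := Nat.cast_sub (by omega)
      rw [this]; push_cast; ring
    · have : ((2 * Q - 2 - i' : ℕ) : ℝ) = 2 * (Q : ℝ) - 2 - i' := by
        rw [Nat.cast_sub (by omega : i' ≤ 2 * Q - 2), Nat.cast_sub (by omega : 2 ≤ 2 * Q)]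
        push_cast; ring
      rw [this]; push_cast; ring
    · have h1 : ((Q - a' : ℕ) : ℝ) = (Q : ℝ) - a' := Nat.cast_sub (by omega)
      have h2 : ((2 * Q - 2 - i' : ℕ) : ℝ) = 2 * (Q : ℝ) - 2 - i' := by
        rw [Nat.cast_sub (by omega : i' ≤ 2 * Q - 2), Nat.cast_sub (by omega : 2 ≤ 2 * Q)]
        push_cast; ring
      rw [h1, h2]; push_cast; ring
  · have hout : 2 * Q - 2 < i ∨ Q < a := by omega
    rw [inBox_lower (inBox_lift hb) i a hout, inBox_lift (inBox_lower hb) i a hout, hb i a hout]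
    ring

end Vale.Agent.P359.Sphere
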